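import Vale.Agent.P011.H359.NoSgd
import Vale.Agent.P011.Six.Frame

/-!
The centralizer of a symmetric square root in degree `2 m`: the elements close to one whose power
of exponent prime to `m` lies in a normal subgroup of finite index.
-/

open NumberField IsDedekindDomain Module Polynomial

set_option linter.unusedSectionVars false

namespace Vale.Agent.P011.H359

open Vale.Agent.P011.Arith Vale.Agent.P011.Even Vale.Agent.P011.Two Vale.Agent.P011.One
open Vale.Agent.P011.Tpl Vale.Agent.P011.Tpl.H541 Vale.Agent.P011.Tpl.H359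
open Vale.Agent.P011.Pow hiding exists_x2 nrd_near exists_numbers
open Vale.Agent.P011.W (HasNrd)

section frame

variable {k K D : Type} [Field k] [NumberField k] [Field K] [NumberField K] [StarRing K]
  [DivisionRing D] [StarRing D] [Algebra k K] [Algebra k D] [Algebra K D] [IsScalarTower k K D]
  {d : kˣ} {s : K}

/-- The product of a symmetric square root and of `s`. -/
theorem st_star (hS : Setting k K D d s) {a : kˣ} {t : D} (ht : t ∈ Xa D a) :
    star (algebraMap K D s * t) = -(algebraMap K D s * t) := by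
  rw [star_mul, ht.1, Two.star_sD hS, mul_neg, Algebra.commutes]

theorem st_sq (hS : Setting k K D d s) {a : kˣ} {t : D} (ht : t ∈ Xa D a) :
    algebraMap K D s * t * (algebraMap K D s * t) = algebraMap k D ((a * d : kˣ) : k) := by
  have h1 : algebraMap K D s * algebraMap K D s = algebraMap k D d := by
    rw [← map_mul, ← pow_two, hS.sq, ← IsScalarTower.algebraMap_apply]
  rw [mul_assoc, ← mul_assoc t, ← Algebra.commutes s t, mul_assoc, ht.2, ← mul_assoc, h1,
    ← map_mul, Units.val_mul, mul_comm]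

/-- Elements anticommuting with `t` anticommute with `s t`. -/
theorem st_anti {t j : D} (h : j * t = -(t * j)) :
    algebraMap K D s * t * j = -(j * (algebraMap K D s * t)) := by
  rw [← mul_assoc j, ← Algebra.commutes s j, mul_assoc _ j t, h, mul_neg, neg_neg, mul_assoc]

/-- There is an antisymmetric element which anticommutes with `t`. -/
theorem exists_skew (hS : Setting k K D d s) {a : kˣ} {t : D} (ht : t ∈ Xa D a)
    (htK : ∀ c : K, algebraMap K D c ≠ t) :
    ∃ j : D, j ≠ 0 ∧ star j = -j ∧ j * t = -(t * j) := by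
  have hcharD : CharZero D := charZero_of_injective_algebraMap (algebraMap k D).injective
  obtain ⟨z, hz0, hz⟩ := exists_anti' hS ht.2 htK
  have hzs : star z * t = -(t * star z) := by
    have h1 := congrArg star hz
    rw [star_mul, star_neg, star_mul, ht.1] at h1
    rw [h1, neg_neg]
  by_cases h : z - star z = 0
  · have h1 : star z = z := (sub_eq_zero.mp h).symm
    refine ⟨algebraMap K D s * z, mul_ne_zero ((_root_.map_ne_zero _).mpr hS.s_ne) hz0, ?_, ?_⟩
    · rw [star_mul, h1, Two.star_sD hS, mul_neg, Algebra.commutes]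
    · rw [mul_assoc, hz, mul_neg, ← mul_assoc, ← mul_assoc, Algebra.commutes s t]
  · refine ⟨z - star z, h, ?_, ?_⟩
    · rw [star_sub, star_star, neg_sub]
    · rw [sub_mul, mul_sub, hz, hzs]
      abel

/-- The quaternion algebra generated by `s t` and an antisymmetric element anticommuting with
`t`. -/
theorem exists_qfr_of (hS : Setting k K D d s) {a : kˣ} {t : D} (ht : t ∈ Xa D a) {j : D}
    (hj0 : j ≠ 0) (hj : star j = -j) (hjt : j * t = -(t * j)) :
    ∃ (F : Type) (_ : Field F) (_ : NumberField F) (_ : Algebra k F) (ι : F →ₐ[k] D) (β : Fˣ),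
      QFr ι (inc k F (a * d)) β (algebraMap K D s * t) j ∧
        ∀ x : F, ∃ p : k[X], x = aeval (β : F) p := by
  have := hS.fin
  have hKf : FiniteDimensional k K := Module.finite_of_finrank_pos (by rw [hS.rank]; norm_num)
  have hDf : FiniteDimensional k D := Module.Finite.trans K D
  obtain ⟨F, _, _, _, ι, b, hb, hgen⟩ := Even.exists_gen (finBasis k D) (j * j)
  have hb0 : b ≠ 0 := by
    rintro rfl
    rw [map_zero] at hb
    exact mul_ne_zero hj0 hj0 hb.symm
  have hcom : ∀ z : D, j * j * z = z * (j * j) → ∀ x : F, ι x * z = z * ι x := by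
    intro z hz x
    obtain ⟨p, rfl⟩ := hgen x
    rw [← aeval_algHom_apply, hb]
    induction p using Polynomial.induction_on' with
    | add p q hp hq => rw [map_add, add_mul, mul_add, hp, hq]
    | monomial n c =>
      rw [aeval_monomial, mul_assoc, ← mul_assoc z, ← Algebra.commutes c z, mul_assoc]
      congr 1
      exact (Commute.pow_left hz n)
  refine ⟨F, inferInstance, inferInstance, inferInstance, ι, Units.mk0 b hb0, ?_, ?_⟩
  · refine
      { sym := ?_
        si := st_star hS ht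
        sj := hj
        ii := ?_
        jj := by rw [Units.val_mk0, hb]
        ij := st_anti hjt
        ci := hcom _ ?_
        cj := hcom _ (by rw [mul_assoc]) }
    · intro x
      obtain ⟨p, rfl⟩ := hgen x
      rw [← aeval_algHom_apply, hb]
      induction p using Polynomial.induction_on' with
      | add p q hp hq => rw [map_add, star_add, hp, hq]
      | monomial n c =>
        rw [aeval_monomial, star_mul, Even.star_alg hS, star_pow, star_mul, hj, neg_mul_neg]
        exact (Algebra.commutes _ _).symm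
    · rw [st_sq hS ht]
      exact (ι.commutes _).symm
    · have h1 : j * j * t = t * (j * j) := by
        rw [mul_assoc, hjt, mul_neg, ← mul_assoc, hjt, neg_mul, neg_neg, mul_assoc]
      rw [← mul_assoc, ← Algebra.commutes s (j * j), mul_assoc _ (j * j) t, h1, ← mul_assoc]
  · intro x
    obtain ⟨p, hp⟩ := hgen x
    exact ⟨p, by rw [Units.val_mk0]; exact hp.symm ▸ rfl⟩

/-- **The unitary elements `p + u s t`** close to one belong to the subgroup. -/
theorem exists_pu_mem (hS : Setting k K D d s) {a : kˣ} {t : D} (ht : t ∈ Xa D a)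
    (htK : ∀ c : K, algebraMap K D c ≠ t) {e : ℕ} (he : 0 < e) {N : Set D} (hN : HQ1 k e N) :
    ∃ S : Set (HeightOneSpectrum (𝓞 k)), S.Finite ∧
      ∃ ε : HeightOneSpectrum (𝓞 k) → Z0, (∀ v, ε v ≠ 0) ∧ ∀ p u : k,
        p ^ 2 - (a * d : k) * u ^ 2 = 1 → (∀ v ∈ S, v.valuation k (p - 1) < ε v) →
        algebraMap k D p + algebraMap k D u * (algebraMap K D s * t) ∈ N := by
  obtain ⟨j, hj0, hj, hjt⟩ := exists_skew hS ht htK
  obtain ⟨F, _, _, _, ι, β, fr, -⟩ := exists_qfr_of hS ht hj0 hj hjt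
  have hfin : {ω : HeightOneSpectrum (𝓞 F) |
      β ∉ NF (inc k F (a * d)) ⊔ LS (ω.valuation F)}.Finite := by
    have := bad_finite (inc k F (a * d)) β
    exact Set.Finite.preimage (Sum.inl_injective.injOn) this
  have he4 : (2 : k) * (e : k) ^ 4 ≠ 0 :=
    mul_ne_zero two_ne_zero (pow_ne_zero 4 (Nat.cast_ne_zero.mpr he.ne'))
  refine ⟨_, below_finite (F := k) hfin, fun v => v.valuation k (2 * (e : k) ^ 4),
    fun v => (Valuation.ne_zero_iff _).mpr he4, fun p u hpu hv => ?_⟩
  have hα : ((inc k F (a * d) : Fˣ) : F) = algebraMap k F ((a * d : kˣ) : k) := rfl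
  have hq : QElt ι (inc k F (a * d)) β (algebraMap K D s * t) j (algebraMap k F p)
      (algebraMap k F u) 0 0 (algebraMap k D p + algebraMap k D u * (algebraMap K D s * t)) :=
    { fr := fr
      nrm := by
        rw [hα, ← map_pow, ← map_pow, ← map_mul, ← map_sub, Units.val_mul, hpu, map_one]
        ring
      eq := by
        rw [AlgHom.commutes, AlgHom.commutes, map_zero, zero_mul, zero_mul, add_zero, add_zero] }
  refine hN F ι _ _ _ _ _ _ _ _ _ hq fun ω hω => ?_
  obtain ⟨v, hωv⟩ := Arith.exists_below (F := k) ω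
  have h1 := hv v ⟨ω, hω, hωv⟩
  have h2 : (2 : F) - 2 * algebraMap k F p = algebraMap k F (2 * (1 - p)) := by
    rw [map_mul, map_sub, map_one, map_ofNat]
    ring
  have h3 : (4 : F) * (e : F) ^ 4 = algebraMap k F (2 * (2 * (e : k) ^ 4)) := by
    rw [map_mul, map_mul, map_pow, map_natCast, map_ofNat]
    ring
  rw [h2, h3]
  refine val_lt_above hωv ?_
  rw [map_mul, map_mul, Valuation.map_sub_swap]
  exact mul_lt_mul_of_pos_left h1 (zero_lt_iff.mpr ((Valuation.ne_zero_iff _).mpr two_ne_zero))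

end frame

/-- **The elements of the centralizer close to one**, in degree `2 m`: in a normal subgroup `H`
which contains the elements close to one and whose elements have a power of exponent prime to `m`
in `Q`. -/
theorem abAt_cop {m : ℕ} (hm : 3 ≤ m) (hMP : MP m) {k K D : Type}
    [Field k] [NumberField k] [Field K] [NumberField K] [StarRing K] [DivisionRing D] [StarRing D]
    [Algebra k K] [Algebra k D] [Algebra K D] [IsScalarTower k K D] {d : kˣ} {s : K}
    (hS : Setting k K D d s) (hdeg : finrank K D = (2 * m) ^ 2) {a : kˣ} {t : D}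
    (ht : t ∈ Xa D a) (ha : ¬ IsSquare (a : k)) (had : ¬ IsSquare ((a * d : kˣ) : k))
    {Ω : Type} [Field Ω] [Algebra K Ω]
    (f : D →ₐ[K] Matrix (Fin (2 * m)) (Fin (2 * m)) Ω) {M : ℕ}
    (B : Basis (Fin M) k D) (Q H : Subgroup (SUD f)) [Q.Normal] (hi : Q.index ≠ 0)
    (hH : PF B (GU f) (Im H) (Tdiv k K D)) {r : ℕ} (hr : ∀ x ∈ H, x ^ r ∈ Q)
    (hrm : r.Coprime m) : AbAt B f (Im Q) t := by
  classical
  have i1 := hS.fin
  have i2 := hS.cen
  have hKc : CharZero K := charZero_of_injective_algebraMap (algebraMap k K).injective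
  have htK : ∀ c : K, algebraMap K D c ≠ t := Xa_ne hS ha ht
  obtain ⟨L, _, _, _, K', _, _, _, _, C, _, _, _, _, _, _, T, j, hSC, hdC, h⟩ :=
    exists_isCent hS ha had (m := m) hdeg ht
  have i3 := hSC.fin
  have i4 := hSC.cen
  have i5 := hSC.fin_k
  have hK'c : CharZero K' := charZero_of_injective_algebraMap (algebraMap K K').injective
  obtain ⟨g⟩ := Vale.Agent.P011S.exists_split (K := K') (D := C) hdC (AlgebraicClosure K')
  obtain ⟨N', hN'n, hN'i, hN'⟩ := h.exists_trace f g rfl hdeg hdC Q hi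
  obtain ⟨B', -⟩ : ∃ B' : Basis (Fin (finrank L C)) L C, B' = B' := ⟨finBasis L C, rfl⟩
  obtain ⟨η', hη', hPF⟩ := hMP.tdiv hSC hm hdC g B' N' hN'i
  obtain ⟨ηH, hηH, hPH⟩ := hH
  -- the places
  have hTf : {w' : HeightOneSpectrum (𝓞 L) | (Sum.inl w' : Pl L) ∈ Tdiv L K' C}.Finite :=
    (tdiv_finite (by omega) hdC).preimage Sum.inl_injective.injOn
  have hTH : {v : HeightOneSpectrum (𝓞 k) | (Sum.inl v : Pl k) ∈ Tdiv k K D}.Finite :=
    (tdiv_finite (by omega) hdeg).preimage Sum.inl_injective.injOn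
  obtain ⟨S1, hS1, ε1, hε1, hpuQ⟩ := exists_pu_mem hS ht htK (Nat.pos_of_ne_zero hi)
    (hq1_im (k := k) f Q hi (Nat.pos_of_ne_zero hi) fun g => Subgroup.pow_index_mem _ g)
  -- the constants
  choose ε₁ hε₁ hprod using fun w' : HeightOneSpectrum (𝓞 L) =>
    near_prod B' (.inl w' : Pl L) m (hη' (.inl w'))
  choose ηd hηd hdown using fun v : HeightOneSpectrum (𝓞 k) =>
    h.near_down B B' v (ε := ε₁) hε₁
  -- the size of `p + u s t`
  have hsm : ∀ v : HeightOneSpectrum (𝓞 k), ∃ ε : Z0, ε ≠ 0 ∧ ε ≤ ε1 v ∧ ∀ p u : k,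
      v.valuation k (p - 1) < ε → v.valuation k u < ε →
      nm B (.inl v) (algebraMap k D p + algebraMap k D u * (algebraMap K D s * t) - 1) <
        ηd v := by
    intro v
    obtain ⟨R, hR⟩ : ∃ R : ℝ, R = nm B (.inl v) (1 : D) + nm B (.inl v) (algebraMap K D s * t) + 1 :=
      ⟨_, rfl⟩
    have h1 := nm_nonneg B (.inl v : Pl k) (1 : D)
    have h2 := nm_nonneg B (.inl v : Pl k) (algebraMap K D s * t)
    have hR0 : 0 < R := by linarith
    obtain ⟨c, hc0, hc⟩ : ∃ c : k, c ≠ 0 ∧ plAbv (.inl v) c < ηd v / R := by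
      obtain ⟨π, hπ⟩ := Even.exists_val_lt_one v
      have h3 : plAbv (.inl v : Pl k) (π : k) < 1 := (plAbv_lt_one v _).mpr hπ
      obtain ⟨N, hN⟩ := exists_pow_lt_of_lt_one (div_pos (hηd v) hR0) h3
      exact ⟨(π : k) ^ N, pow_ne_zero _ π.ne_zero, by rwa [map_pow]⟩
    refine ⟨min (ε1 v) (v.valuation k c), ?_, min_le_left _ _, fun p u hp hu => ?_⟩
    · rcases min_choice (ε1 v) (v.valuation k c) with h4 | h4 <;> rw [h4]
      · exact hε1 v
      · exact (Valuation.ne_zero_iff _).mpr hc0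
    · have hp' : plAbv (.inl v) (p - 1) < ηd v / R :=
        ((plAbv_lt v _ _).mpr (hp.trans_le (min_le_right _ _))).trans hc
      have hu' : plAbv (.inl v) u < ηd v / R :=
        ((plAbv_lt v _ _).mpr (hu.trans_le (min_le_right _ _))).trans hc
      have e1 : algebraMap k D p + algebraMap k D u * (algebraMap K D s * t) - 1 =
          (p - 1) • (1 : D) + u • (algebraMap K D s * t) := by
        rw [Algebra.smul_def, Algebra.smul_def, map_sub, map_one, mul_one]
        abel
      rw [e1]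
      have e2 := nm_add_le B (.inl v : Pl k) ((p - 1) • (1 : D)) (u • (algebraMap K D s * t))
      rw [nm_smul, nm_smul] at e2
      have e3 : plAbv (.inl v) (p - 1) * nm B (.inl v) (1 : D) ≤
          ηd v / R * nm B (.inl v) (1 : D) := mul_le_mul_of_nonneg_right hp'.le h1
      have e4 : plAbv (.inl v) u * nm B (.inl v) (algebraMap K D s * t) ≤
          ηd v / R * nm B (.inl v) (algebraMap K D s * t) := mul_le_mul_of_nonneg_right hu'.le h2
      have e5 : ηd v / R * nm B (.inl v) (1 : D) +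
          ηd v / R * nm B (.inl v) (algebraMap K D s * t) = ηd v / R * (R - 1) := by
        rw [hR]; ring
      have e6 : ηd v / R * (R - 1) < ηd v := by
        have e7 : ηd v / R * R = ηd v := div_mul_cancel₀ _ hR0.ne'
        have e8 : 0 < ηd v / R := div_pos (hηd v) hR0
        nlinarith
      linarith
  choose ε2 hε2 hε21 hnear2 using hsm
  choose η₁ hη₁ hpu using fun v => pu_near hS hSC h hdC B v (hε2 v)
  refine ⟨S1 ∪ {v : HeightOneSpectrum (𝓞 k) | ∃ w ∈ {w' : HeightOneSpectrum (𝓞 L) |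
      (Sum.inl w' : Pl L) ∈ Tdiv L K' C}, w.asIdeal.comap (algebraMap (𝓞 k) (𝓞 L)) = v.asIdeal} ∪
      {v : HeightOneSpectrum (𝓞 k) | (Sum.inl v : Pl k) ∈ Tdiv k K D},
    (hS1.union (below_finite hTf)).union hTH,
    fun v => min (η₁ v) (min (ηd v) (ηH (.inl v))),
    fun v => lt_min (hη₁ v) (lt_min (hηd v) (hηH _)), ?_⟩
  intro e₁ het hestar hedet hnear
  obtain ⟨x, rfl⟩ := (h.range e₁).mp het
  have hx1' : j x * star (j x) = 1 := mul_eq_one_comm.mp hestar
  have hx1 : x * star x = 1 := by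
    apply h.inj
    rw [map_mul, h.star, map_one]
    exact hx1'
  have hxG : j x ∈ GU f := ⟨hx1', hedet⟩
  obtain ⟨p, u, hpux, hpu1⟩ := exists_pu hS hSC h rfl hdeg hdC f hx1 hedet
  obtain ⟨ν, hν⟩ : ∃ ν : K', ν = kk k K K' p + kk k K K' u * om K' s T := ⟨_, rfl⟩
  have hjν : j (algebraMap K' C ν) =
      algebraMap k D p + algebraMap k D u * (algebraMap K D s * t) := by
    have h1 : ∀ c : k, j (algebraMap K' C (kk k K K' c)) = algebraMap k D c := fun c => by
      rw [IsScalarTower.algebraMap_apply k K D]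
      exact h.jK _
    rw [hν, map_add, map_add, map_mul, map_mul, h1, h1, om, map_mul, map_mul, h.jK,
      ← IsScalarTower.algebraMap_apply L K' C, h.jT]
  have hν0 : ν ≠ 0 := by
    intro h0
    have h1 : HasNrd K' m x 0 := by rw [← h0, hν]; exact hpux
    have h2 := h1.mul (h1.inv (left_ne_zero_of_mul_eq_one hx1))
    rw [mul_inv_cancel₀ (left_ne_zero_of_mul_eq_one hx1), zero_mul] at h2
    exact one_ne_zero (W.HasNrd.unique hdC W.HasNrd.one h2)
  have hνs : ν * star ν = 1 := by
    have h1 : HasNrd K' m (star x) (star ν) := W.HasNrd.star (fun c => hSC.star_alg c) (hν ▸ hpux)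
    have h2 := (hν ▸ hpux : HasNrd K' m x ν).mul h1
    rw [hx1] at h2
    exact W.HasNrd.unique hdC h2 W.HasNrd.one
  -- `p + u s t` belongs to `Q`
  have hνQ : j (algebraMap K' C ν) ∈ Im Q := by
    rw [hjν]
    refine hpuQ p u hpu1 fun v hv => ?_
    exact ((hpu v x p u hpux ((hnear v (Or.inl (Or.inl hv))).trans_le (min_le_left _ _))).1).trans_le
      (hε21 v)
  -- the quotient
  have hxm0 : x ^ m ≠ 0 := pow_ne_zero _ (left_ne_zero_of_mul_eq_one hx1)
  have hyG : algebraMap K' C ν * (x ^ m)⁻¹ ∈ GU g := by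
    have hpm : ∀ n : ℕ, x ^ n * star (x ^ n) = 1 := by
      intro n
      induction n with
      | zero => rw [pow_zero, star_one, mul_one]
      | succ n ih => rw [pow_succ, star_mul, mul_assoc, ← mul_assoc x, hx1, one_mul, ih]
    have hinv : (x ^ m)⁻¹ = star (x ^ m) := (eq_inv_of_mul_eq_one_right (hpm m)).symm
    refine ⟨?_, ?_⟩
    · rw [star_mul, hinv, star_star, mul_assoc, ← mul_assoc (star (x ^ m)), ← hinv,
        inv_mul_cancel₀ hxm0, one_mul, hSC.star_alg, ← map_mul, hνs, map_one]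
    · have h1 : HasNrd K' m (x ^ m) (ν ^ m) := hasNrd_pow (hν ▸ hpux) m
      have h2 := (hasNrd_alg (C := C) (m := m) ν).mul (h1.inv hxm0)
      rw [mul_inv_cancel₀ (pow_ne_zero _ hν0)] at h2
      have h3 := h2 _ g
      rwa [map_one] at h3
  have hyQ : algebraMap K' C ν * (x ^ m)⁻¹ ∈ Im N' := by
    refine hPF _ hyG fun q hq => ?_
    obtain ⟨w', rfl, -⟩ := id hq
    obtain ⟨v, hwv⟩ := Arith.exists_below (F := k) w'
    have hv : v ∈ S1 ∪ {v : HeightOneSpectrum (𝓞 k) | ∃ w ∈ {w' : HeightOneSpectrum (𝓞 L) |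
        (Sum.inl w' : Pl L) ∈ Tdiv L K' C}, w.asIdeal.comap (algebraMap (𝓞 k) (𝓞 L)) = v.asIdeal} ∪
        {v : HeightOneSpectrum (𝓞 k) | (Sum.inl v : Pl k) ∈ Tdiv k K D} :=
      Or.inl (Or.inr ⟨w', hq, hwv⟩)
    have h1 : nm B (.inl v) (j (x - 1)) < ηd v := by
      rw [map_sub, map_one]
      exact (hnear v hv).trans_le ((min_le_right _ _).trans (min_le_left _ _))
    have h2 : nm B (.inl v) (j (algebraMap K' C ν - 1)) < ηd v := by
      rw [map_sub, map_one, hjν]
      obtain ⟨h3, h4⟩ := hpu v x p u hpux ((hnear v hv).trans_le (min_le_left _ _))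
      exact hnear2 v p u h3 h4
    have h3 := hprod w' (algebraMap K' C ν) x 1 (hdown v _ h2 w' hwv) (hdown v _ h1 w' hwv) (by
      rw [sub_self, nm_zero]
      exact hε₁ w')
    rwa [mul_one] at h3
  have h1 := ((hN' _).mp hyQ).2
  -- `x ^ m` belongs to `Q`
  obtain ⟨X, hX, hXx⟩ := exists_SUD hxG
  obtain ⟨gν, hgν, hgνe⟩ := hνQ
  obtain ⟨gy, hgy, hgye⟩ := h1
  have h2 : (⟨X, hX⟩ : SUD f) ^ m = gy⁻¹ * gν := by
    rw [eq_inv_mul_iff_mul_eq]
    apply Subtype.ext
    apply Units.ext
    change ((gy : Dˣ) : D) * ((X : D) ^ m) = ((gν : Dˣ) : D)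
    rw [hgye, hgνe, hXx, map_mul, map_inv₀, map_pow, inv_mul_cancel_right₀]
    exact pow_ne_zero _ (left_ne_zero_of_mul_eq_one hx1')
  have h3 : (⟨X, hX⟩ : SUD f) ^ m ∈ Q := by
    rw [h2]
    exact Q.mul_mem (Q.inv_mem hgy) hgν
  have h4 : (⟨X, hX⟩ : SUD f) ∈ H := by
    refine mem_of_im ?_
    change (X : D) ∈ Im H
    rw [hXx]
    refine hPH _ hxG fun q hq => ?_
    obtain ⟨v, rfl, -⟩ := id hq
    exact (hnear v (Or.inr hq)).trans_le ((min_le_right _ _).trans (min_le_right _ _))
  have h5 := hr _ h4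
  have h6 : (⟨X, hX⟩ : SUD f) ∈ Q := by
    obtain ⟨u', w', huw⟩ : ∃ u' w' : ℤ, (r : ℤ) * u' + (m : ℤ) * w' = 1 := by
      refine ⟨r.gcdA m, r.gcdB m, ?_⟩
      have h7 := Nat.gcd_eq_gcd_ab r m
      rw [hrm] at h7
      push_cast at h7
      exact h7.symm
    have h7 : (⟨X, hX⟩ : SUD f) = ((⟨X, hX⟩ : SUD f) ^ r) ^ u' * ((⟨X, hX⟩ : SUD f) ^ m) ^ w' := by
      rw [← zpow_natCast, ← zpow_natCast, ← zpow_mul, ← zpow_mul, ← zpow_add, huw, zpow_one]
    rw [h7]
    exact Q.mul_mem (Q.zpow_mem h5 _) (Q.zpow_mem h3 _)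
  exact ⟨_, h6, hXx⟩

end Vale.Agent.P011.H359
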