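import Vale.Agent.P011.H359.Semi
import Vale.Agent.P011.H359.SolvA

/-!
Elements anticommuting with a symmetric square root: the automorphism of the centralizer, the
coefficients of the square.
-/

open NumberField IsDedekindDomain Module Polynomial

set_option linter.unusedSectionVars false

namespace Vale.Agent.P011.H359

open Vale.Agent.P011.Arith Vale.Agent.P011.Even Vale.Agent.P011.Two Vale.Agent.P011.One
open Vale.Agent.P011.Pow hiding exists_x2 nrd_near exists_numbers
open Vale.Agent.P011.H775 (Cub)

section frm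

variable {k K D L K' C : Type} [Field k] [NumberField k] [Field K] [NumberField K] [StarRing K]
  [DivisionRing D] [StarRing D] [Algebra k K] [Algebra k D] [Algebra K D] [IsScalarTower k K D]
  [Field L] [NumberField L] [Algebra k L] [Field K'] [StarRing K'] [NumberField K']
  [Algebra K K'] [DivisionRing C] [StarRing C] [Algebra L K'] [Algebra L C] [Algebra K' C]
  [IsScalarTower L K' C] {d : kˣ} {s : K} {a : kˣ} {t : D} {T : L} {ι : C →+* D}

theorem lift_center {R : Type} [Ring R] [Nontrivial R] [Algebra K' R] (g : K' →+* R)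
    (hg : ∀ c, ∃ c', algebraMap K' R c' = g c) :
    ∃ τ : K' →+* K', ∀ c, algebraMap K' R (τ c) = g c := by
  choose τ hτ using hg
  have hi := (algebraMap K' R).injective
  exact ⟨{ toFun := τ
           map_one' := hi (by rw [hτ, map_one, map_one])
           map_mul' := fun x y => hi (by rw [hτ, map_mul, map_mul, hτ, hτ])
           map_zero' := hi (by rw [hτ, map_zero, map_zero])
           map_add' := fun x y => hi (by rw [hτ, map_add, map_add, hτ, hτ]) }, hτ⟩

/-- **The automorphism of the centralizer** attached to an element anticommuting with `t`. -/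
theorem exists_theta (h : IsCent k K D L K' C t a T ι) {u : D} (hu : u ≠ 0)
    (hut : u * t = -(t * u)) :
    ∃ (θ : C →+* C) (τ : K' →+* K'), (∀ x, ι (θ x) = u * ι x * u⁻¹) ∧
      (∀ c, θ (algebraMap K' C c) = algebraMap K' C (τ c)) ∧
      (∀ c : K, τ (algebraMap K K' c) = algebraMap K K' c) ∧
      τ (algebraMap L K' T) = -algebraMap L K' T := by
  have hti : t * u⁻¹ = -(u⁻¹ * t) := by
    have h1 : u * (t * u⁻¹) * u = u * (-(u⁻¹ * t)) * u := by
      rw [← mul_assoc, inv_mul_cancel_right₀ hu, hut, mul_neg, ← mul_assoc, mul_inv_cancel₀ hu,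
        one_mul, neg_mul]
    exact mul_left_cancel₀ hu (mul_right_cancel₀ hu h1)
  have hex : ∀ x : C, ∃ y : C, ι y = u * ι x * u⁻¹ := by
    intro x
    refine (h.range _).mp ?_
    have h1 := h.comm x
    calc u * ι x * u⁻¹ * t = u * ι x * -(t * u⁻¹) := by rw [hti, neg_neg, mul_assoc]
      _ = -(u * (ι x * t) * u⁻¹) := by rw [mul_neg, ← mul_assoc, mul_assoc u]
      _ = -(u * t * ι x * u⁻¹) := by rw [h1, ← mul_assoc]
      _ = t * (u * ι x * u⁻¹) := by
        rw [hut, neg_mul, neg_mul, neg_neg, mul_assoc, mul_assoc, mul_assoc]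
  choose θ hθ using hex
  have hcanc : ∀ x y : D, u * x * u⁻¹ * (u * y * u⁻¹) = u * (x * y) * u⁻¹ := by
    intro x y
    rw [mul_assoc (u * x), ← mul_assoc u⁻¹, ← mul_assoc u⁻¹, inv_mul_cancel₀ hu, one_mul]
    simp only [mul_assoc]
  let θ' : C →+* C :=
    { toFun := θ
      map_one' := h.inj (by rw [hθ, map_one, mul_one, mul_inv_cancel₀ hu])
      map_mul' := fun x y => h.inj (by rw [hθ, map_mul, map_mul, hθ, hθ, hcanc])
      map_zero' := h.inj (by rw [hθ, map_zero, mul_zero, zero_mul])
      map_add' := fun x y => h.inj (by rw [hθ, map_add, map_add, hθ, hθ, mul_add, add_mul]) }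
  have hθ' : ∀ x, ι (θ' x) = u * ι x * u⁻¹ := hθ
  have hK : ∀ c : K, θ' (algebraMap K' C (algebraMap K K' c)) =
      algebraMap K' C (algebraMap K K' c) := by
    intro c
    apply h.inj
    rw [hθ', h.jK, ← Algebra.commutes, mul_assoc, mul_inv_cancel₀ hu, mul_one]
  have hT : θ' (algebraMap K' C (algebraMap L K' T)) =
      algebraMap K' C (-algebraMap L K' T) := by
    apply h.inj
    rw [hθ', map_neg, map_neg, ← IsScalarTower.algebraMap_apply, h.jT, hut, neg_mul, mul_assoc,
      mul_inv_cancel₀ hu, mul_one]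
  obtain ⟨τ, hτ⟩ := lift_center (K' := K') (θ'.comp (algebraMap K' C)) (fun c => by
    obtain ⟨p, q, rfl⟩ := h.repK c
    refine ⟨algebraMap K K' p + algebraMap K K' q * -algebraMap L K' T, ?_⟩
    rw [RingHom.comp_apply, map_add, map_mul, map_add, map_mul, map_add, map_mul, hK, hK, hT])
  have hi := (algebraMap K' C).injective
  refine ⟨θ', τ, hθ', fun c => (hτ c).symm, fun c => hi ?_, hi ?_⟩
  · rw [hτ, RingHom.comp_apply, hK]
  · rw [hτ, RingHom.comp_apply, hT]

section fixed

variable (hS : Setting k K D d s) (hSC : Setting L K' C (inc k L d) (algebraMap K K' s))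
  (h : IsCent k K D L K' C t a T ι)

include hS hSC h

theorem starK (c : K) : star (algebraMap K K' c) = algebraMap K K' (star c) := by
  apply (algebraMap K' C).injective
  apply h.inj
  rw [← hSC.star_alg, h.star, h.jK, h.jK, hS.star_alg]

theorem starT (ht : t ∈ Xa D a) : star (algebraMap L K' T) = algebraMap L K' T := by
  apply (algebraMap K' C).injective
  apply h.inj
  rw [← hSC.star_alg, h.star, ← IsScalarTower.algebraMap_apply, h.jT, ht.1]

theorem T_ne : algebraMap L K' T ≠ 0 := by
  intro h0
  have h1 := h.jT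
  rw [IsScalarTower.algebraMap_apply L K' C, h0, map_zero, map_zero] at h1
  have h2 := h.sq
  rw [← h1, mul_zero] at h2
  exact a.ne_zero ((algebraMap k D).injective (by rw [← h2, map_zero]))

/-- The fixed field of the star and of `τ`. -/
theorem fix_k (ht : t ∈ Xa D a) {τ : K' →+* K'}
    (hτK : ∀ c : K, τ (algebraMap K K' c) = algebraMap K K' c)
    (hτT : τ (algebraMap L K' T) = -algebraMap L K' T) {c : K'} (h1 : star c = c) (h2 : τ c = c) :
    ∃ e : k, c = kk k K K' e := by
  have hc0 : CharZero K' := charZero_of_injective_algebraMap (algebraMap K K').injective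
  obtain ⟨p, q, rfl⟩ := h.repK c
  have hT0 := T_ne hS hSC h
  have hq : q = 0 := by
    rw [map_add, map_mul, hτK, hτK, hτT] at h2
    have h3 : (2 : K') * (algebraMap K K' q * algebraMap L K' T) = 0 := by
      linear_combination (-1 : K') * h2
    have h4 := (mul_eq_zero.mp ((mul_eq_zero.mp h3).resolve_left two_ne_zero)).resolve_right hT0
    exact (_root_.map_eq_zero _).mp h4
  subst hq
  rw [map_zero, zero_mul, add_zero, starK hS hSC h] at h1
  obtain ⟨e, he⟩ := (hS.fix p).mp ((algebraMap K K').injective h1)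
  exact ⟨e, by rw [map_zero, zero_mul, add_zero, ← he]; rfl⟩

/-- The fixed field of the product of the star and of `τ`. -/
theorem fix_i (ht : t ∈ Xa D a) {τ : K' →+* K'}
    (hτK : ∀ c : K, τ (algebraMap K K' c) = algebraMap K K' c)
    (hτT : τ (algebraMap L K' T) = -algebraMap L K' T) {c : K'} (h1 : τ (star c) = c) :
    ∃ p q : k, c = kk k K K' p + kk k K K' q * om K' s T := by
  have hc0 : CharZero K' := charZero_of_injective_algebraMap (algebraMap K K').injective
  obtain ⟨p, q, rfl⟩ := h.repK c
  have hT0 := T_ne hS hSC h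
  rw [star_add, star_mul, starK hS hSC h, starK hS hSC h, starT hS hSC h ht, map_add, map_mul,
    hτK, hτK, hτT] at h1
  -- the coordinates
  have hind : ∀ p q : K, algebraMap K K' p + algebraMap K K' q * algebraMap L K' T = 0 →
      p = 0 ∧ q = 0 := by
    intro p q hpq
    have h2 := congrArg τ hpq
    rw [map_add, map_mul, hτK, hτK, hτT, map_zero] at h2
    have h3 : (2 : K') * algebraMap K K' p = 0 := by linear_combination hpq + h2
    have h4 : (2 : K') * (algebraMap K K' q * algebraMap L K' T) = 0 := by
      linear_combination hpq - h2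
    refine ⟨(_root_.map_eq_zero (algebraMap K K')).mp
      ((mul_eq_zero.mp h3).resolve_left two_ne_zero), ?_⟩
    exact (_root_.map_eq_zero (algebraMap K K')).mp ((mul_eq_zero.mp
      ((mul_eq_zero.mp h4).resolve_left two_ne_zero)).resolve_right hT0)
  obtain ⟨e1, e2⟩ := hind (star p - p) (-(star q) - q) (by
    rw [map_sub, map_sub, map_neg]
    linear_combination h1)
  obtain ⟨p', hp'⟩ := (hS.fix p).mp (sub_eq_zero.mp e1)
  have hs0 := hS.s_ne
  obtain ⟨q', hq'⟩ := (hS.fix (q / s)).mp (by
    rw [star_div₀, hS.star_s]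
    have : star q = -q := by linear_combination (-1 : K) * e2
    rw [this, neg_div_neg_eq])
  refine ⟨p', q', ?_⟩
  have e3 : q = algebraMap k K q' * s := by rw [hq', div_mul_cancel₀ _ hs0]
  rw [e3, ← hp', om, kk, RingHom.comp_apply, RingHom.comp_apply, map_mul]
  ring

end fixed

end frm

end Vale.Agent.P011.H359
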