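import Vale.Agent.P011.Tpl.H541.SSq
import Vale.Agent.P011.Tpl.H359.Vn

/-!
The induction step `2 l -> 4 l` on the degree, without any condition on the signatures or on the
residue fields.
-/

open NumberField IsDedekindDomain Module TensorProduct
open Vale.Agent.P011.RP (RData Complete)

set_option linter.unusedSectionVars false

namespace Vale.Agent.P011.H359

open Vale.Agent.P011.Arith Vale.Agent.P011.Even Vale.Agent.P011.Two Vale.Agent.P011.One
open Vale.Agent.P011.Tpl Vale.Agent.P011.Tpl.H541 Vale.Agent.P011.Tpl.H359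
open Vale.Agent.P011.Pow hiding exists_x2 nrd_near exists_numbers

section main

variable {k K D : Type} [Field k] [NumberField k] [Field K] [NumberField K] [StarRing K]
  [DivisionRing D] [StarRing D] [Algebra k K] [Algebra k D] [Algebra K D] [IsScalarTower k K D]
  {d : kˣ} {s : K}

/-- **Symmetric square roots** in degree `2 m`, `m ≥ 2`: for all numbers with local conditions at
finitely many places. -/
theorem exists_sym_sqrt (hS : Setting k K D d s) {m : ℕ} (hm : 2 ≤ m)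
    (hdeg : finrank K D = (2 * m) ^ 2) :
    ∃ S : Set (HeightOneSpectrum (𝓞 k)), S.Finite ∧ ∀ a : kˣ, ¬ IsSquare (a : k) →
      ¬ IsSquare ((a * d : kˣ) : k) → (∀ φ : k →+* ℝ, φ d < 0 → 0 < φ a) →
      (∀ φ : k →+* ℝ, 0 < φ d → φ a < 0) →
      (∀ v ∈ S, d ∉ LS (v.valuation k) → a * d ∉ LS (v.valuation k)) →
      (∀ v ∈ Ram k K D (2 * m), a ∉ LS (v.valuation k)) → ∃ σ, σ ∈ Xa D a := by
  obtain ⟨S, hSf, h⟩ := exists_sym_sqrt2 hS hm hdeg
  refine ⟨S, hSf, fun a ha had h1 h2 h3 h4 => ?_⟩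
  obtain ⟨ι, _, R, hcom, hd, P, hP⟩ := exists_sigs hS (n := 2 * m) (by omega) hdeg
  obtain ⟨σ, hσ, -⟩ := h a ha had h1 h2 h3 h4 ι R hcom hd (fun i => min (P i) m)
    (fun i => P i - min (P i) m) (fun i => min_le_right _ _)
    (fun i => by have := (hP i).2; omega)
    (fun i => by
      have h5 : min (P i) m + (P i - min (P i) m) = P i := by omega
      rw [h5]
      exact (hP i).1)
  exact ⟨σ, hσ⟩

/-- **The first square root** in degree `2 m`. -/
theorem exists_first (hS : Setting k K D d s) {m : ℕ} (hm : 2 ≤ m)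
    (hdeg : finrank K D = (2 * m) ^ 2) {R : Set (HeightOneSpectrum (𝓞 k))} (hR : R.Finite)
    (c : HeightOneSpectrum (𝓞 k) → kˣ)
    (hc : ∀ v ∈ R ∪ Ram k K D (2 * m),
      c v ∉ LS (v.valuation k) ∧ c v * d ∉ LS (v.valuation k)) :
    ∃ (a : kˣ) (t : D), t ∈ Xa D a ∧ ¬ IsSquare (a : k) ∧ ¬ IsSquare ((a * d : kˣ) : k) ∧
      (∀ v ∈ R ∪ Ram k K D (2 * m), a / c v ∈ LS (v.valuation k)) ∧
      (∀ φ : k →+* ℝ, φ d < 0 → 0 < φ a) ∧ (∀ φ : k →+* ℝ, 0 < φ d → φ a < 0) := by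
  classical
  have i1 := hS.fin
  have i2 := hS.cen
  obtain ⟨S, hSf, h⟩ := exists_sym_sqrt hS hm hdeg
  obtain ⟨u, hu⟩ : ∃ u : HeightOneSpectrum (𝓞 k) → kˣ, ∀ v,
      u v ∉ LS (v.valuation k) ∧ u v * d ∉ LS (v.valuation k) := by
    choose u hu1 hu2 using fun v : HeightOneSpectrum (𝓞 k) => exists_class v d
    exact ⟨u, fun v => ⟨hu1 v, by rw [mul_comm]; exact hu2 v⟩⟩
  obtain ⟨Q, hQ⟩ : ∃ Q, Q = R ∪ Ram k K D (2 * m) := ⟨_, rfl⟩
  have hQf : Q.Finite := by
    rw [hQ]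
    exact hR.union (ram_finite (k := k) (K := K) (D := D) (by omega) hdeg)
  rw [← hQ] at hc ⊢
  obtain ⟨a, ha, had, h3, h4, h5⟩ := exists_numc d (hQf.union hSf)
    (fun v => if v ∈ Q then c v else u v) (by
      intro v _
      by_cases hv : v ∈ Q
      · simp only [if_pos hv]
        exact hc v hv
      · simp only [if_neg hv]
        exact hu v)
  have h6 : ∀ v ∈ Q ∪ S, a ∉ LS (v.valuation k) ∧ a * d ∉ LS (v.valuation k) := by
    intro v hv
    have h7 := h3 v hv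
    by_cases hvQ : v ∈ Q
    · rw [if_pos hvQ] at h7
      exact ⟨div_mem h7 (hc v hvQ).1, div_mem' h7 (hc v hvQ).2⟩
    · rw [if_neg hvQ] at h7
      exact ⟨div_mem h7 (hu v).1, div_mem' h7 (hu v).2⟩
  obtain ⟨t, ht⟩ := h a ha had h4 h5 (fun v hv _ => (h6 v (Or.inr hv)).2)
    (fun v hv => (h6 v (Or.inl (hQ ▸ Or.inr hv))).1)
  refine ⟨a, t, ht, ha, had, fun v hv => ?_, h4, h5⟩
  have h8 := h3 v (Or.inl hv)
  rwa [if_pos hv] at h8

/-- **The first square root**, with odd valuation at the places where the algebra does not split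
and non-square classes at a given finite set of places. -/
theorem exists_first_odd (hS : Setting k K D d s) {m : ℕ} (hm : 2 ≤ m)
    (hdeg : finrank K D = (2 * m) ^ 2) {R : Set (HeightOneSpectrum (𝓞 k))} (hR : R.Finite) :
    ∃ (a : kˣ) (t : D), t ∈ Xa D a ∧ ¬ IsSquare (a : k) ∧ ¬ IsSquare ((a * d : kˣ) : k) ∧
      (∀ v ∈ R ∪ Ram k K D (2 * m), a ∉ LS (v.valuation k) ∧ a * d ∉ LS (v.valuation k)) ∧
      (∀ φ : k →+* ℝ, φ d < 0 → 0 < φ a) ∧ (∀ φ : k →+* ℝ, 0 < φ d → φ a < 0) ∧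
      (∀ v ∈ Ram k K D (2 * m), ∃ z : ℤ, v.valuation k (a : k) = WithZero.exp (2 * z + 1)) := by
  classical
  have i1 := hS.fin
  have i2 := hS.cen
  choose u hu1 hu2 using fun v : HeightOneSpectrum (𝓞 k) => exists_class v d
  have hπ : ∀ v : HeightOneSpectrum (𝓞 k), ∃ π : kˣ, ∃ z : ℤ,
      v.valuation k (π : k) = WithZero.exp (2 * z + 1) := by
    intro v
    obtain ⟨π, hπ⟩ := v.valuation_exists_uniformizer k
    have hπ0 : π ≠ 0 := by
      rintro rfl
      rw [map_zero] at hπ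
      exact WithZero.exp_ne_zero hπ.symm
    exact ⟨Units.mk0 π hπ0, -1, by rw [Units.val_mk0, hπ]; rfl⟩
  choose π hπ using hπ
  have hc : ∀ v ∈ R ∪ Ram k K D (2 * m),
      (if v ∈ Ram k K D (2 * m) then π v else u v) ∉ LS (v.valuation k) ∧
      (if v ∈ Ram k K D (2 * m) then π v else u v) * d ∉ LS (v.valuation k) := by
    intro v _
    by_cases hv : v ∈ Ram k K D (2 * m)
    · rw [if_pos hv]
      have h1 := not_LS_of_odd (hπ v)
      refine ⟨h1, fun h2 => h1 ?_⟩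
      exact (Subgroup.mul_mem_cancel_right _ (ram_split hS (by omega) hdeg hv)).mp h2
    · rw [if_neg hv]
      exact ⟨hu1 v, by rw [mul_comm]; exact hu2 v⟩
  obtain ⟨a, t, ht, ha, had, h3, h4, h5⟩ := exists_first hS hm hdeg hR
    (fun v => if v ∈ Ram k K D (2 * m) then π v else u v) hc
  refine ⟨a, t, ht, ha, had, fun v hv => ?_, h4, h5, fun v hv => ?_⟩
  · exact ⟨div_mem (h3 v hv) (hc v hv).1, div_mem' (h3 v hv) (hc v hv).2⟩
  · have h7 := h3 v (Or.inr hv)
    rw [if_pos hv] at h7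
    exact odd_of_div h7 (hπ v)

end main

/-- **The second square root**, in the centralizer `C` (degree `2 l`) of the first one. -/
theorem exists_second {k K D L K' C : Type}
    [Field k] [NumberField k] [Field K] [NumberField K] [StarRing K] [DivisionRing D] [StarRing D]
    [Algebra k K] [Algebra k D] [Algebra K D] [IsScalarTower k K D]
    [Field L] [NumberField L] [Algebra k L] [Field K'] [NumberField K'] [StarRing K']
    [Algebra K K'] [DivisionRing C] [StarRing C] [Algebra L K'] [Algebra L C] [Algebra K' C]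
    [IsScalarTower L K' C]
    {d : kˣ} {s : K} {t : D} {a : kˣ} {T : L} {j : C →+* D}
    (hS : Setting k K D d s) (hSC : Setting L K' C (inc k L d) (algebraMap K K' s))
    (h : IsCent k K D L K' C t a T j) {l : ℕ} (hl : 2 ≤ l)
    (hdD : finrank K D = (2 * (2 * l)) ^ 2) (hdC : finrank K' C = (2 * l) ^ 2)
    (hre : ∀ φ : k →+* ℝ, 0 < φ d → φ a < 0) :
    ∃ N0 : Set (HeightOneSpectrum (𝓞 k)), N0.Finite ∧ Disjoint N0 (Ram k K D (2 * (2 * l))) ∧
      ∀ b : kˣ, ¬ IsSquare (algebraMap k L (b : k)) →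
        ¬ IsSquare (algebraMap k L ((b * d : kˣ) : k)) → (∀ φ : k →+* ℝ, 0 < φ b) →
        (∀ v ∈ N0, b ∈ LS (v.valuation k)) →
        (∀ v ∈ Ram k K D (2 * (2 * l)), b ∉ LS (v.valuation k) ∧ a * b ∉ LS (v.valuation k)) →
        ∃ s₂, s₂ ∈ Xa C (inc k L b) := by
  classical
  have i1 := hS.fin
  have i2 := hS.cen
  have i3 := hSC.fin
  have i4 := hSC.cen
  obtain ⟨S, hSf, hs⟩ := exists_sym_sqrt hSC (m := l) hl hdC
  refine ⟨{v : HeightOneSpectrum (𝓞 k) | ∃ w ∈ S ∪ Ram L K' C (2 * l),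
      w.asIdeal.comap (algebraMap (𝓞 k) (𝓞 L)) = v.asIdeal} \ Ram k K D (2 * (2 * l)),
    (below_finite (hSf.union (ram_finite (by omega) hdC))).subset Set.sdiff_subset,
    Set.disjoint_sdiff_left, ?_⟩
  intro b hb hbd hreb hN hRb
  refine hs (inc k L b) hb (by
      have h1 : ((inc k L b * inc k L d : Lˣ) : L) = algebraMap k L ((b * d : kˣ) : k) := by
        rw [← map_mul]
        rfl
      rw [h1]
      exact hbd)
    (fun φ _ => hreb (φ.comp (algebraMap k L)))
    (fun φ hφ => by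
      exfalso
      have h1 := hre (φ.comp (algebraMap k L)) hφ
      have h2 : (φ.comp (algebraMap k L)) a = φ T * φ T := by
        rw [RingHom.comp_apply, ← h.sqT, map_mul]
      rw [h2] at h1
      exact absurd h1 (not_lt.mpr (mul_self_nonneg _)))
    (by
      intro w hw hdw
      obtain ⟨v, hv⟩ := Arith.exists_below (F := k) w
      by_cases hvR : v ∈ Ram k K D (2 * (2 * l))
      · exact absurd (LS_map hv (ram_split hS (by omega) hdD hvR)) hdw
      · have h1 : inc k L b ∈ LS (w.valuation L) := LS_map hv (hN v ⟨⟨w, Or.inl hw, hv⟩, hvR⟩)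
        exact fun h2 => hdw ((Subgroup.mul_mem_cancel_left _ h1).mp h2))
    (by
      intro w hw
      obtain ⟨v, hv, hwv⟩ := ram_over h (m := 2 * l) hw
      obtain ⟨h1, h2⟩ := hRb v hv
      exact ls_desc h.rkL h.not_isSquare (by rw [sq]; exact h.sqT) hwv h1 h2)

/-- **The elements of the centralizer**, from the statement for all algebras of degree `2 l`. -/
theorem abAt_of_MP {l : ℕ} (hl : 2 ≤ l) (hMP : MP (2 * l)) {k K D : Type}
    [Field k] [NumberField k] [Field K] [NumberField K] [StarRing K] [DivisionRing D] [StarRing D]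
    [Algebra k K] [Algebra k D] [Algebra K D] [IsScalarTower k K D] {d : kˣ} {s : K}
    (hS : Setting k K D d s)
    (hdeg : finrank K D = (2 * (2 * l)) ^ 2) {a : kˣ} {t : D} (ht : t ∈ Xa D a)
    (ha : ¬ IsSquare (a : k)) (had : ¬ IsSquare ((a * d : kˣ) : k))
    (hre : ∀ φ : k →+* ℝ, 0 < φ d → φ a < 0)
    {Ω : Type} [Field Ω] [Algebra K Ω]
    (f : D →ₐ[K] Matrix (Fin (2 * (2 * l))) (Fin (2 * (2 * l))) Ω) {M : ℕ}
    (B : Basis (Fin M) k D) (N : Subgroup (SUD f)) [N.Normal] (hi : N.index ≠ 0) :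
    AbAt B f (Im N) t := by
  choose c hc1 hc2 using fun v : HeightOneSpectrum (𝓞 k) => exists_class v a
  refine ab_gen hl hS hdeg ht ha had hre c (fun v _ => ⟨hc1 v, hc2 v⟩) ?_ f B N hi
  intro L K' C _ _ _ _ _ _ _ _ _ _ _ _ _ T j hSC hdC h
  refine ⟨fun Ω _ _ g M B N _ hN => hMP L K' C _ _ hSC hdC Ω g M B N hN, ?_⟩
  obtain ⟨N0, hN0, hdis, hs⟩ := exists_second hS hSC h hl hdeg hdC hre
  refine ⟨N0, hN0, hdis, fun b hb hbd hbre hbN hbR => ?_⟩
  obtain ⟨s₂, hs₂⟩ := hs b hb hbd hbre hbN fun v hv => ⟨(hbR v hv).1, (hbR v hv).2.1⟩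
  refine ⟨s₂, hs₂, ?_⟩
  intro F F' E _ _ _ _ _ _ _ _ _ _ _ _ _ S jE hSE hdE hcE Ω _ _ g M B N _ hN
  exact hMP F F' E _ _ hSE hdE Ω g M B N hN

/-- **The induction step on the degree**, for all number fields, all signatures and all residue
fields: degree `2 l` implies degree `4 l`, for `l ≥ 2`. -/
theorem mp_double {l : ℕ} (hl : 2 ≤ l) (hMP : MP (2 * l)) : MP (2 * (2 * l)) := by
  intro k K D _ _ _ _ _ _ _ _ _ _ _ d s hS hdeg Ω _ _ f M B N _ hi
  obtain ⟨a, t, ht, ha, had, -, -, hre, -⟩ := exists_first_odd hS (m := 2 * l) (by omega) hdeg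
    (R := ∅) Set.finite_empty
  exact pf_of_abAt hS (by omega) hdeg f B ht N hi (abAt_of_MP hl hMP hS hdeg ht ha had hre f B N hi)

/-- Degree `2 l` implies degree `2 l 2 ^ e`. -/
theorem mp_double_pow {l : ℕ} (hl : 2 ≤ l) (hMP : MP (2 * l)) (e : ℕ) : MP (2 * l * 2 ^ e) := by
  induction e with
  | zero => rwa [pow_zero, mul_one]
  | succ e ih =>
    have h1 : 2 * l * 2 ^ (e + 1) = 2 * (2 * (l * 2 ^ e)) := by
      rw [pow_succ]
      ring
    have h2 : 2 * l * 2 ^ e = 2 * (l * 2 ^ e) := by ring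
    rw [h2] at ih
    rw [h1]
    exact mp_double (hl.trans (Nat.le_mul_of_pos_right _ (by positivity))) ih

end Vale.Agent.P011.H359
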