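import Vale.Agent.P011.H359.NoSgd
import Vale.Agent.P011.Pow.QEnd

/-!
**All degrees, from the odd degrees and one doubling step.**
-/

namespace Vale.Agent.P011.H359

open Vale.Agent.P011.Arith Vale.Agent.P011.Even Vale.Agent.P011.Two Vale.Agent.P011.One
  Vale.Agent.P011.Pow

/-- **Every degree `n ≥ 3`**, from the odd degrees and the step `m -> 2 m` for odd `m`. -/
theorem mp_all (hodd : ∀ n : ℕ, 3 ≤ n → Odd n → MP n)
    (hdbl : ∀ m : ℕ, 3 ≤ m → Odd m → MP m → MP (2 * m)) (n : ℕ) (hn : 3 ≤ n) : MP n := by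
  obtain ⟨e, q, hq, rfl⟩ := Nat.exists_eq_two_pow_mul_odd (n := n) (by omega)
  have hq1 : 1 ≤ q := hq.pos
  rcases Nat.lt_or_ge q 3 with h | h
  · have h1 : q = 1 := by
      obtain ⟨r, hr⟩ := hq
      omega
    subst h1
    rw [mul_one] at hn ⊢
    refine mp_two ?_
    by_contra he
    have he' : e ≤ 1 := by omega
    have h2 : (2 : ℕ) ^ e ≤ 2 ^ 1 := Nat.pow_le_pow_right (by norm_num) he'
    omega
  · cases e with
    | zero =>
      rw [pow_zero, one_mul]
      exact hodd q h hq
    | succ e =>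
      have h1 : 2 ^ (e + 1) * q = 2 * q * 2 ^ e := by
        rw [pow_succ]
        ring
      rw [h1]
      exact mp_double_pow (by omega) (hdbl q h hq (hodd q h hq)) e

end Vale.Agent.P011.H359
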