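import Vale.Agent.P011.H359.Frm2
import Vale.Agent.P011.H373.LocNorm

/-!
Small lemmas for the doubling step.
-/

open NumberField IsDedekindDomain Module Polynomial

set_option linter.unusedSectionVars false

namespace Vale.Agent.P011.H359

open Vale.Agent.P011.Arith Vale.Agent.P011.Even Vale.Agent.P011.Two Vale.Agent.P011.One
open Vale.Agent.P011.Pow hiding exists_x2 nrd_near exists_numbers
open Vale.Agent.P011.H775 (Cub)

section pen

variable {k D : Type} [Field k] [Ring D] [Algebra k D]

theorem natDegree_ofNat_mul_le {f : k[X]} {n : ℕ} (c : ℕ) (hf : f.natDegree ≤ n) :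
    ((c : k[X]) * f).natDegree ≤ n := by
  refine natDegree_mul_le.trans ?_
  rw [natDegree_natCast, zero_add]
  exact hf

theorem cop_of_Cop {tr : D →ₗ[k] k} {x y : D} (h : Cop tr x y) :
    IsCoprime (PE1 tr x y ^ 2 - 3 * PE2 tr x y) (PE1 tr x y * PE2 tr x y - 9 * PE3 tr x y) ∧
      IsCoprime (PE2 tr x y) (PE3 tr x y) := by
  have d1 := PE1_natDegree tr x y
  have d2 := PE2_natDegree tr x y
  have d3 := PE3_natDegree tr x y
  refine ⟨cop_of_res ?_ ?_ (by norm_num) h.1, cop_of_res d2 d3 (by norm_num) h.2⟩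
  · refine (natDegree_sub_le _ _).trans (max_le ?_ ?_)
    · refine natDegree_pow_le.trans ?_
      omega
    · exact natDegree_ofNat_mul_le 3 d2
  · refine (natDegree_sub_le _ _).trans (max_le ?_ ?_)
    · refine natDegree_mul_le.trans ?_
      omega
    · exact natDegree_ofNat_mul_le 9 d3

theorem smul_flip {x y : D} {T : k} (hT : T ≠ 0) : x + T • y = T • (y + T⁻¹ • x) := by
  rw [smul_add, smul_smul, mul_inv_cancel₀ hT, one_smul, add_comm]

theorem pwr_flip (tr : D →ₗ[k] k) (x y : D) (n : ℕ) {T : k} (hT : T ≠ 0) :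
    (pwr tr x y n).eval T = T ^ n * (pwr tr y x n).eval T⁻¹ := by
  rw [pwr_eval, pwr_eval, smul_flip hT, _root_.smul_pow, map_smul, smul_eq_mul]

theorem PE3_flip (tr : D →ₗ[k] k) (x y : D) {T : k} (hT : T ≠ 0) :
    (PE3 tr x y).eval T = T ^ 6 * (PE3 tr y x).eval T⁻¹ := by
  simp only [PE3, PE1, eval_mul, eval_C, eval_add, eval_sub, eval_pow, eval_ofNat,
    pwr_flip tr x y _ hT]
  ring

theorem PE_zero (tr : D →ₗ[k] k) (T : k) {x y : D} (h : x + T • y = 0) :
    (PE1 tr x y).eval T = 0 ∧ (PE2 tr x y).eval T = 0 ∧ (PE3 tr x y).eval T = 0 := by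
  have h1 : ∀ n : ℕ, n ≠ 0 → (pwr tr x y n).eval T = 0 := fun n hn => by
    rw [pwr_eval, h, zero_pow hn, map_zero]
  refine ⟨h1 2 (by norm_num), ?_, ?_⟩
  · simp only [PE2, PE1, eval_mul, eval_sub, eval_pow, h1 2 (by norm_num), h1 4 (by norm_num)]
    ring
  · simp only [PE3, PE1, eval_mul, eval_sub, eval_add, eval_pow, h1 2 (by norm_num),
      h1 4 (by norm_num), h1 6 (by norm_num)]
    ring

end pen

section cub

variable {K D : Type} [Field K] [Ring D] [Algebra K D] (C : Cub K D)

theorem N_smul_add_one (c : K) (x : D) :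
    C.N (c • x + 1) = c ^ 3 * C.N x + c ^ 2 * C.S x + c * C.T x + 1 := by
  rw [C.N_add, C.N_smul, C.adj_smul, C.adj_one, C.N_one, mul_one, mul_one, map_smul, map_smul,
    smul_eq_mul, smul_eq_mul]
  rfl

theorem cub_scalar (c : K) : C.T (algebraMap K D c) = 3 * c ∧ C.S (algebraMap K D c) = 3 * c ^ 2 ∧
    C.N (algebraMap K D c) = c ^ 3 := by
  rw [Algebra.algebraMap_eq_smul_one]
  refine ⟨?_, ?_, ?_⟩
  · rw [map_smul, C.T_one, smul_eq_mul, mul_comm]
  · rw [C.S_smul, Cub.S, C.adj_one, C.T_one, mul_comm]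
  · rw [C.N_smul, C.N_one, mul_one]

theorem cube_center {K D : Type} [Field K] [CharZero K] [DivisionRing D] [Algebra K D]
    (C : Cub K D) {x : D} (h1 : C.T x ^ 2 = 3 * C.S x) (h2 : C.T x * C.S x = 9 * C.N x) :
    ∃ c : K, algebraMap K D c = x := by
  refine ⟨C.T x / 3, ?_⟩
  have h3 : (3 : K) ≠ 0 := by norm_num
  set c := C.T x / 3 with hc
  have hT : C.T x = 3 * c := by rw [hc, mul_div_cancel₀ _ h3]
  have hS : C.S x = 3 * c ^ 2 := by
    rw [hT] at h1
    apply mul_left_cancel₀ h3
    linear_combination (-1 : K) * h1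
  have hN : C.N x = c ^ 3 := by
    rw [hT, hS] at h2
    apply mul_left_cancel₀ (show (9 : K) ≠ 0 by norm_num)
    linear_combination (-1 : K) * h2
  have h4 := C.cayley x
  rw [hT, hS, hN] at h4
  have hcom : Commute x (algebraMap K D c) := (Algebra.commutes c x).symm
  have h5 : (x - algebraMap K D c) ^ 3 = 0 := by
    rw [← h4]
    simp only [Algebra.smul_def, map_mul, map_pow, map_ofNat]
    have e := hcom.eq
    have : (x - algebraMap K D c) ^ 3 = x * x * x - 3 * algebraMap K D c * (x * x) +
        3 * algebraMap K D c ^ 2 * x - algebraMap K D c ^ 3 * 1 := by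
      have e1 : (x - algebraMap K D c) ^ 3 = x * x * x - (x * x * algebraMap K D c +
          x * algebraMap K D c * x + algebraMap K D c * x * x) +
          (x * algebraMap K D c * algebraMap K D c + algebraMap K D c * x * algebraMap K D c +
            algebraMap K D c * algebraMap K D c * x) -
          algebraMap K D c * algebraMap K D c * algebraMap K D c := by
        simp only [pow_succ, pow_zero, one_mul]
        noncomm_ring
      rw [e1]
      have e2 : x * x * algebraMap K D c = algebraMap K D c * (x * x) := by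
        rw [mul_assoc, e, ← mul_assoc, e, mul_assoc]
      have e3 : x * algebraMap K D c * x = algebraMap K D c * (x * x) := by rw [e, mul_assoc]
      have e4 : x * algebraMap K D c * algebraMap K D c =
          algebraMap K D c * algebraMap K D c * x := by
        rw [e, mul_assoc, e, ← mul_assoc]
      have e5 : algebraMap K D c * x * algebraMap K D c =
          algebraMap K D c * algebraMap K D c * x := by
        rw [mul_assoc, e, ← mul_assoc]
      rw [e2, e3, e4, e5]
      simp only [pow_succ, pow_zero, one_mul, mul_one]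
      noncomm_ring
    exact this
  exact (sub_eq_zero.mp (pow_eq_zero_iff (by norm_num) |>.mp h5)).symm

end cub

/-- The reduced norm of the cubic structure. -/
theorem hasNrd_cub {K D : Type} [Field K] [DivisionRing D] [Algebra K D] [FiniteDimensional K D]
    [Algebra.IsCentral K D] (C : Cub K D) (hD : finrank K D = 3 ^ 2) (x : D) :
    W.HasNrd K 3 x (C.N x) := by
  obtain ⟨Ω, _, _, f, hf, hT, hN, hA⟩ := C.spl
  intro Ω' _ _ g
  exact H268.det_compare (by norm_num) hD f g x (hN x)

theorem cub_of_hasNrd {K D : Type} [Field K] [DivisionRing D] [Algebra K D]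
    [FiniteDimensional K D] [Algebra.IsCentral K D] (C : Cub K D) (hD : finrank K D = 3 ^ 2)
    {x : D} {ν : K} (h : W.HasNrd K 3 x ν) : C.N x = ν :=
  W.HasNrd.unique hD (hasNrd_cub C hD x) h

/-- The norm of a root of a cubic polynomial. -/
theorem norm_root {k E : Type} [Field k] [NumberField k] [Field E] [NumberField E] [Algebra k E]
    (hE : finrank k E = 3) {e1 e2 e3 : k} {θ : E}
    (hθ : θ ^ 3 - algebraMap k E e1 * θ ^ 2 + algebraMap k E e2 * θ - algebraMap k E e3 = 0)
    (hgen : ∀ c : k, algebraMap k E c ≠ θ) : Algebra.norm k θ = e3 := by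
  have hfd : FiniteDimensional k E := Module.finite_of_finrank_pos (by rw [hE]; norm_num)
  set f : k[X] := X ^ 3 - C e1 * X ^ 2 + C e2 * X - C e3 with hf
  have hdeg : f.natDegree = 3 := by
    rw [hf]
    compute_degree!
  have hm : f.Monic := by
    rw [Monic, leadingCoeff, hdeg, hf]
    simp [coeff_X, coeff_C]
  have h0 : aeval θ f = 0 := by
    rw [hf]
    simpa using hθ
  have hmp := H373.minpoly_eq Nat.prime_three hE hm hdeg h0 hgen
  have h1 := H373.norm_eq_resultant (K := k) (E := E) (θ := θ) (by rw [hmp, hdeg, hE]) X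
    (n := 1) natDegree_X_le
  rw [aeval_X, hmp, hE] at h1
  rw [h1]
  have h2 : resultant f X 3 1 = (-1) ^ 3 * f.eval 0 := by
    have := resultant_X_sub_C_right (f := f) (m := 3) (r := (0 : k)) (by rw [hdeg])
    rwa [C_0, sub_zero] at this
  rw [h2, hf]
  simp only [eval_sub, eval_add, eval_pow, eval_X, eval_mul, eval_C]
  ring

end Vale.Agent.P011.H359
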