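import Vale.Agent.P011.H359.Dbl0
import Vale.Agent.P011.H83.NuNorm
import Vale.Agent.P011.H929.NotCube

/-!
Valuations at the places where the norm one element is not a unit.
-/

open NumberField IsDedekindDomain Module Polynomial

set_option linter.unusedSectionVars false

namespace Vale.Agent.P011.H359

open Vale.Agent.P011.Arith Vale.Agent.P011.Even Vale.Agent.P011.Two Vale.Agent.P011.One
open Vale.Agent.P011.Pow hiding exists_x2 nrd_near exists_numbers
open Vale.Agent.P011.H775 (Cub)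
open Vale.Agent.P011.H83.NuNorm (nn NN near_mul)

section val

variable {F Γ : Type*} [Field F] [LinearOrderedCommGroupWithZero Γ] (V : Valuation F Γ)

theorem near_one {x : F} (hx : V (x - 1) < 1) : V x = 1 := by
  have h1 : V (x - 1) < V 1 := by rwa [map_one]
  have h2 := Valuation.map_add_eq_of_lt_left V h1
  rwa [add_comm, sub_add_cancel, map_one] at h2

theorem near_inv {x : F} (hx : V (x - 1) < 1) : V (x⁻¹ - 1) < 1 := by
  have h1 := near_one V hx
  have h0 : x ≠ 0 := by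
    rintro rfl
    rw [map_zero] at h1
    exact zero_ne_one h1
  have e : x⁻¹ - 1 = -(x - 1) * x⁻¹ := by
    field_simp
    ring
  rw [e, map_mul, Valuation.map_neg, map_inv₀, h1, inv_one, mul_one]
  exact hx

theorem val_p_eq {δ p u : F} (hδ : V δ = 1) (hpu : p ^ 2 - δ * u ^ 2 = 1) (hu : 1 < V u) :
    V p = V u := by
  have e : p ^ 2 = δ * u ^ 2 + 1 := by linear_combination hpu
  have h1 : V (δ * u ^ 2) = V u ^ 2 := by rw [map_mul, hδ, one_mul, map_pow]
  have h2 : V 1 < V (δ * u ^ 2) := by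
    rw [h1, map_one]
    exact one_lt_pow₀ hu (by norm_num)
  have h3 := Valuation.map_add_eq_of_lt_left V h2
  rw [← e, h1, map_pow] at h3
  exact (pow_left_inj₀ zero_le zero_le two_ne_zero).mp h3

theorem val_p_le {δ p u : F} (hδ : V δ = 1) (hpu : p ^ 2 - δ * u ^ 2 = 1) (hu : V u ≤ 1) :
    V p ≤ 1 := by
  have e : p ^ 2 = 1 + δ * u ^ 2 := by linear_combination hpu
  have h1 : V (p ^ 2) ≤ 1 := by
    rw [e]
    refine (V.map_add _ _).trans (max_le (by rw [map_one]) ?_)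
    rw [map_mul, hδ, one_mul, map_pow]
    exact pow_le_one₀ zero_le hu
  rw [map_pow] at h1
  exact (pow_le_one_iff two_ne_zero).mp h1

theorem nu_ne {x x' c : F} (h1 : x * x' = 1) (h2 : x + x' = c) (h3 : 1 < V c) : V x ≠ 1 := by
  intro h
  have h4 : V x' = 1 := by
    have := congrArg V h1
    rwa [map_mul, h, one_mul, map_one] at this
  have h5 := V.map_add x x'
  rw [h2, h, h4, max_self] at h5
  exact absurd h5 (not_le.mpr h3)

theorem nu_eq {x x' : F} (h1 : x * x' = 1) (h2 : V x ≤ 1) (h3 : V x' ≤ 1) : V x = 1 := by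
  refine le_antisymm h2 ?_
  have h4 := congrArg V h1
  rw [map_mul, map_one] at h4
  rw [← h4]
  exact mul_le_of_le_one_right' h3

end val

section loc

variable {F E : Type} [Field F] [NumberField F] [Field E] [NumberField E] [Algebra F E]
  (hE : finrank F E = 3) (V : Valuation F Z0)

include hE

theorem loc_lt {θ : E} {a3 T f3 e3 ν n : F} (M : ℕ) (hN : Algebra.norm F θ = a3) (hT : T ≠ 0)
    (he : e3 ≠ 0) (hν : ν ≠ 0) (hn : n ≠ 0) (hf3 : f3 = n * e3 ^ 3)
    (hx : V (a3 / (T ^ 6 * f3) - 1) < 1) (hy : V (n * ν ^ (2 * (3 * M + 1)) - 1) < 1) :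
    ∃ e : E, V (ν / Algebra.norm F e - 1) < 1 := by
  refine ⟨algebraMap F E (ν / (T ^ 2 * e3 / ν ^ (2 * M))) * θ, ?_⟩
  have ha : a3 ≠ 0 := by
    rintro rfl
    rw [zero_div, zero_sub, Valuation.map_neg, map_one] at hx
    exact lt_irrefl _ hx
  rw [map_mul, Algebra.norm_algebraMap, hE, hN]
  have e : ν / ((ν / (T ^ 2 * e3 / ν ^ (2 * M))) ^ 3 * a3) =
      ((a3 / (T ^ 6 * f3)) * (n * ν ^ (2 * (3 * M + 1))))⁻¹ := by
    rw [hf3]
    have e1 : ν ^ (2 * (3 * M + 1)) = (ν ^ (2 * M)) ^ 3 * ν ^ 2 := by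
      rw [← pow_mul, ← pow_add]
      congr 1
      ring
    rw [e1]
    field_simp
  rw [e]
  exact near_inv V (near_mul V hx hy)

theorem loc_gt {θ : E} {a3 T f3 e3 ν n : F} (M : ℕ) (hN : Algebra.norm F θ = a3) (hT : T ≠ 0)
    (he : e3 ≠ 0) (hν : ν ≠ 0) (hn : n ≠ 0) (hf3 : f3 = n * e3 ^ 3)
    (hx : V (a3 / (T ^ 6 * f3) - 1) < 1) (hy : V (n / ν ^ (2 * (3 * M + 1)) - 1) < 1) :
    ∃ e : E, V (ν / Algebra.norm F e - 1) < 1 := by
  refine ⟨algebraMap F E (T ^ 2 * e3 * ν ^ (2 * M) * ν) * θ⁻¹, ?_⟩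
  have ha : a3 ≠ 0 := by
    rintro rfl
    rw [zero_div, zero_sub, Valuation.map_neg, map_one] at hx
    exact lt_irrefl _ hx
  have hfd : FiniteDimensional F E := Module.finite_of_finrank_pos (by rw [hE]; norm_num)
  have hθ0 : θ ≠ 0 := by
    rintro rfl
    rw [Algebra.norm_zero] at hN
    exact ha hN.symm
  have hinv : Algebra.norm F θ⁻¹ = (Algebra.norm F θ)⁻¹ := by
    refine eq_inv_of_mul_eq_one_left ?_
    rw [← map_mul, inv_mul_cancel₀ hθ0, map_one]
  rw [map_mul, Algebra.norm_algebraMap, hE, hinv, hN]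
  have e : ν / ((T ^ 2 * e3 * ν ^ (2 * M) * ν) ^ 3 * a3⁻¹) =
      (a3 / (T ^ 6 * f3)) * (n / ν ^ (2 * (3 * M + 1))) := by
    rw [hf3]
    have e1 : ν ^ (2 * (3 * M + 1)) = (ν ^ (2 * M)) ^ 3 * ν ^ 2 := by
      rw [← pow_mul, ← pow_add]
      congr 1
      ring
    rw [e1]
    field_simp
  rw [e]
  exact near_mul V hx hy

end loc

/-- The exponent which is good at finitely many places. -/
theorem exists_M {F : Type} [Field F] [NumberField F] (σ τ : F →+* F) {ν : F} (t1 s1 : F)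
    (h0 : ν ≠ 0) (hσ : σ ν = ν⁻¹) (hτ : τ ν = ν⁻¹) {P : Set (HeightOneSpectrum (𝓞 F))}
    (hP : P.Finite) : ∃ M : ℕ, ∀ V ∈ P, (V.valuation F ν < 1 →
      V.valuation F (NN σ τ ν t1 s1 M * ν ^ (2 * (3 * M + 1)) - 1) < 1) ∧
      (1 < V.valuation F ν → V.valuation F (NN σ τ ν t1 s1 M / ν ^ (2 * (3 * M + 1)) - 1) < 1) := by
  have h1 : ∀ V : HeightOneSpectrum (𝓞 F), ∃ M0 : ℕ, ∀ M ≥ M0, (V.valuation F ν < 1 →
      V.valuation F (NN σ τ ν t1 s1 M * ν ^ (2 * (3 * M + 1)) - 1) < 1) ∧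
      (1 < V.valuation F ν →
        V.valuation F (NN σ τ ν t1 s1 M / ν ^ (2 * (3 * M + 1)) - 1) < 1) := by
    intro V
    obtain ⟨g1, g2⟩ := H83.NuNorm.nu_norm (V.valuation F) σ τ t1 s1 h0 hσ hτ
    rcases lt_trichotomy (V.valuation F ν) 1 with h | h | h
    · obtain ⟨M0, hM0⟩ := g1 h
      exact ⟨M0, fun M hM => ⟨fun _ => hM0 M hM, fun h' => absurd h' h.not_gt⟩⟩
    · exact ⟨0, fun M _ => ⟨fun h' => absurd h h'.ne, fun h' => absurd h h'.ne'⟩⟩
    · obtain ⟨M0, hM0⟩ := g2 h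
      exact ⟨M0, fun M hM => ⟨fun h' => absurd h' h.not_gt, fun _ => hM0 M hM⟩⟩
  choose M0 hM0 using h1
  refine ⟨hP.toFinset.sup M0, fun V hV => hM0 V _ ?_⟩
  exact Finset.le_sup (hP.mem_toFinset.mpr hV)

end Vale.Agent.P011.H359
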