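import Vale.Agent.P011.H359.Dbl1
import Vale.Agent.P011.H974.Base
import Vale.Agent.P011.H974.CopBase
import Vale.Agent.P011.H14.NearTwo
import Vale.Agent.P011.H83.CopNear
import Vale.Agent.P011.H74.ExT
import Vale.Agent.P011.H974.RamOut

/-!
The element `j` attached to an element of the centralizer near one.
-/

open NumberField IsDedekindDomain Module Polynomial

set_option linter.unusedSectionVars false

namespace Vale.Agent.P011.H359

open Vale.Agent.P011.Arith Vale.Agent.P011.Even Vale.Agent.P011.Two Vale.Agent.P011.One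
open Vale.Agent.P011.Pow hiding exists_x2 nrd_near exists_numbers
open Vale.Agent.P011.H775 (Cub)
open Vale.Agent.P011.H83.NuNorm (nn NN)

section frm

variable {k K D L K' C : Type} [Field k] [NumberField k] [Field K] [NumberField K] [StarRing K]
  [DivisionRing D] [StarRing D] [Algebra k K] [Algebra k D] [Algebra K D] [IsScalarTower k K D]
  [Field L] [NumberField L] [Algebra k L] [Field K'] [StarRing K'] [NumberField K']
  [Algebra K K'] [DivisionRing C] [StarRing C] [Algebra L K'] [Algebra L C] [Algebra K' C]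
  [IsScalarTower L K' C] {d : kˣ} {s : K} {a : kˣ} {t : D} {T : L} {ι : C →+* D}

theorem HasE.ne {CC : Cub K' C} {w : D} {γ : C} {e1 e2 e3 : k}
    (he : HasE k K CC ι w γ e1 e2 e3) (hw : w ≠ 0) : e3 ≠ 0 := by
  rintro rfl
  have h4 := he.N
  rw [map_zero] at h4
  have h5 : γ = 0 := CC.N_eq_zero.mp h4
  have h6 := he.sq
  rw [h5, map_zero] at h6
  exact mul_ne_zero hw hw h6.symm

/-- A square with scalar root. -/
theorem HasE.center {CC : Cub K' C} {w : D} {γ : C} {e1 e2 e3 : k}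
    (he : HasE k K CC ι w γ e1 e2 e3) {c : K'} (hc : algebraMap K' C c = γ) :
    e1 ^ 2 - 3 * e2 = 0 ∧ e1 * e2 - 9 * e3 = 0 := by
  obtain ⟨h1, h2, h3⟩ := cub_scalar CC c
  rw [hc, he.T] at h1
  rw [hc, he.S] at h2
  rw [hc, he.N] at h3
  constructor
  · apply (kk k K K').injective
    rw [map_sub, map_mul, map_pow, map_ofNat, map_zero, h1, h2]
    ring
  · apply (kk k K K').injective
    rw [map_sub, map_mul, map_mul, map_ofNat, map_zero, h1, h2, h3]
    ring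

theorem HasE.center' {CC : Cub K' C} {w : D} {γ : C} {e1 e2 e3 : k}
    (he : HasE k K CC ι w γ e1 e2 e3) (hc : ∀ c : K', algebraMap K' C c ≠ γ) :
    ∃ g : k, g ≠ 0 ∧ (g = e1 ^ 2 - 3 * e2 ∨ g = e1 * e2 - 9 * e3) := by
  have hc0 : CharZero K' := inferInstance
  by_contra hg
  push Not at hg
  have g1 : e1 ^ 2 - 3 * e2 = 0 := by
    by_contra h
    exact (hg _ h).1 rfl
  have g2 : e1 * e2 - 9 * e3 = 0 := by
    by_contra h
    exact (hg _ h).2 rfl
  obtain ⟨c, hc'⟩ := cube_center CC (x := γ) (by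
    rw [he.T, he.S]
    have := congrArg (kk k K K') g1
    rw [map_sub, map_mul, map_pow, map_ofNat, map_zero] at this
    linear_combination this) (by
    rw [he.T, he.S, he.N]
    have := congrArg (kk k K K') g2
    rw [map_sub, map_mul, map_mul, map_ofNat, map_zero] at this
    linear_combination this)
  exact hc c hc'

theorem theta_unique (h : IsCent k K D L K' C t a T ι) {τ τ' : K' →+* K'}
    (h1 : ∀ c : K, τ (algebraMap K K' c) = algebraMap K K' c)
    (h2 : τ (algebraMap L K' T) = -algebraMap L K' T)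
    (h1' : ∀ c : K, τ' (algebraMap K K' c) = algebraMap K K' c)
    (h2' : τ' (algebraMap L K' T) = -algebraMap L K' T) : τ' = τ := by
  ext c
  obtain ⟨p, q, rfl⟩ := h.repK c
  rw [map_add, map_mul, map_add, map_mul, h1, h1, h1', h1', h2, h2']

/-- The bad places of the base element. -/
theorem exists_bad (δ : kˣ) {e1 e2 e3 g : k} (he3 : e3 ≠ 0) (hg0 : g ≠ 0)
    (hg : g = e1 ^ 2 - 3 * e2 ∨ g = e1 * e2 - 9 * e3) :
    ∃ S : Set (HeightOneSpectrum (𝓞 k)), S.Finite ∧ ∀ v ∉ S, v.valuation k 6 = 1 ∧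
      v.valuation k (δ : k) = 1 ∧ v.valuation k e1 ≤ 1 ∧ v.valuation k e2 ≤ 1 ∧
      v.valuation k e3 = 1 ∧ ¬ (v.valuation k (e1 ^ 2 - 3 * e2) < 1 ∧
        v.valuation k (e1 * e2 - 9 * e3) < 1) := by
  have h6 : (6 : k) ≠ 0 := by norm_num
  have hle : ∀ e : k, {v : HeightOneSpectrum (𝓞 k) | ¬ v.valuation k e ≤ 1}.Finite := by
    intro e
    rcases eq_or_ne e 0 with rfl | he
    · refine Set.Finite.subset Set.finite_empty ?_
      intro v hv
      refine (hv ?_).elim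
      rw [map_zero]
      exact zero_le_one
    · refine (finite_valuation_ne_one e he).subset ?_
      intro v hv h1
      exact hv h1.le
  refine ⟨((((({v | v.valuation k 6 ≠ 1} ∪ {v | v.valuation k (δ : k) ≠ 1}) ∪
    {v | ¬ v.valuation k e1 ≤ 1}) ∪ {v | ¬ v.valuation k e2 ≤ 1}) ∪
    {v | v.valuation k e3 ≠ 1}) ∪ {v | v.valuation k g ≠ 1}),
    (((((finite_valuation_ne_one _ h6).union (finite_valuation_ne_one _ δ.ne_zero)).union
      (hle e1)).union (hle e2)).union (finite_valuation_ne_one _ he3)).union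
      (finite_valuation_ne_one _ hg0), ?_⟩
  intro v hv
  simp only [Set.mem_union, Set.mem_ofPred_eq, not_or, not_not] at hv
  obtain ⟨⟨⟨⟨⟨a1, a2⟩, a3⟩, a4⟩, a5⟩, a6⟩ := hv
  refine ⟨a1, a2, a3, a4, a5, ?_⟩
  rintro ⟨b1, b2⟩
  rcases hg with rfl | rfl
  · exact b1.ne a6
  · exact b2.ne a6

variable (hS : Setting k K D d s) (hSC : Setting L K' C (inc k L d) (algebraMap K K' s))
  (h : IsCent k K D L K' C t a T ι) (hdC : finrank K' C = 3 ^ 2) (ht : t ∈ Xa D a)
  (CC : Cub K' C)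

include hS hSC h hdC ht

omit hdC ht hSC in
/-- The product with the conjugate. -/
theorem nu_mul {p u : k} (hpu : p ^ 2 - (a * d : kˣ) * u ^ 2 = 1) :
    (kk k K K' p + kk k K K' u * om K' s T) * (kk k K K' p - kk k K K' u * om K' s T) = 1 := by
  have h1 := om_sq hS h
  have h2 := congrArg (kk k K K') hpu
  rw [map_sub, map_mul, map_pow, map_pow, map_one, Units.val_mul] at h2
  linear_combination h2 - (kk k K K' u) ^ 2 * h1

/-- The second element of the pencil. -/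
theorem exists_j2 {j1 : D} (hj0 : j1 ≠ 0) (hj : Wt t j1) {γ1 : C} {e1 e2 e3 : k}
    (he : HasE k K CC ι j1 γ1 e1 e2 e3) {x : C} {p u : k}
    (hpu : p ^ 2 - (a * d : kˣ) * u ^ 2 = 1)
    (hN : CC.N x = kk k K K' p + kk k K K' u * om K' s T)
    {P : Set (HeightOneSpectrum (𝓞 K'))} (hP : P.Finite) :
    ∃ (M : ℕ) (n : K') (j2 : D), j2 =
        ι (algebraMap K' C ((kk k K K' p + kk k K K' u * om K' s T) ^ M) * x + 1) * j1 ^ 3 *
          star (ι (algebraMap K' C ((kk k K K' p + kk k K K' u * om K' s T) ^ M) * x + 1)) ∧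
      Wt t j2 ∧ (∀ (γ2 : C) (f1 f2 f3 : k), HasE k K CC ι j2 γ2 f1 f2 f3 →
        kk k K K' f3 = n * kk k K K' e3 ^ 3) ∧
      ∀ V ∈ P, (V.valuation K' (kk k K K' p + kk k K K' u * om K' s T) < 1 →
        V.valuation K' (n * (kk k K K' p + kk k K K' u * om K' s T) ^ (2 * (3 * M + 1)) - 1) < 1) ∧
        (1 < V.valuation K' (kk k K K' p + kk k K K' u * om K' s T) →
        V.valuation K' (n / (kk k K K' p + kk k K K' u * om K' s T) ^ (2 * (3 * M + 1)) - 1)
          < 1) := by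
  have hmul := nu_mul hS h hpu
  set ν := kk k K K' p + kk k K K' u * om K' s T with hν
  obtain ⟨θ, τ, hθ, hθτ, hτK, hτT⟩ := exists_theta h hj0 hj.an
  have hν0 : ν ≠ 0 := left_ne_zero_of_mul_eq_one hmul
  have hν' : kk k K K' p - kk k K K' u * om K' s T = ν⁻¹ := eq_inv_of_mul_eq_one_right hmul
  have hkτ : ∀ c : k, τ (kk k K K' c) = kk k K K' c := fun c => hτK _
  have hkσ : ∀ c : k, star (kk k K K' c) = kk k K K' c := by
    intro c
    rw [kk, RingHom.comp_apply, starK hS hSC h]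
    congr 1
    exact (hS.fix _).mpr ⟨c, rfl⟩
  have hτo : τ (om K' s T) = -om K' s T := by
    rw [om, map_mul, hτK, hτT, mul_neg]
  have hσo : star (om K' s T) = -om K' s T := by
    rw [om, star_mul, starK hS hSC h, starT hS hSC h ht, hS.star_s, map_neg]
    ring
  have hσ : starRingEnd K' ν = ν⁻¹ := by
    rw [starRingEnd_apply, hν, star_add, star_mul, hkσ, hkσ, hσo, ← hν, ← hν']
    ring
  have hτ : τ ν = ν⁻¹ := by
    rw [hν, map_add, map_mul, hkτ, hkτ, hτo, ← hν, ← hν']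
    ring
  obtain ⟨M, hM⟩ := exists_M (starRingEnd K') τ (CC.T x) (CC.S x) hν0 hσ hτ hP
  refine ⟨M, NN (starRingEnd K') τ ν (CC.T x) (CC.S x) M, _, rfl, ?_, ?_, hM⟩
  · exact hj.cube.congr (h.comm _) ht.1
  · intro γ2 f1 f2 f3 hf
    obtain ⟨γ', g1, g2, g3, hg⟩ := exists_E hS hSC h hdC ht CC (pow_ne_zero 3 hj0) hj.cube
    have hg3 := hasE_cube CC he hg h.inj
    obtain ⟨τ', h1, h2, h3⟩ := e3_congr hS hSC h hdC ht CC (pow_ne_zero 3 hj0) hj.cube _ hg hf
    have hττ : τ' = τ := theta_unique h hτK hτT h1 h2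
    subst hττ
    have hNw : CC.N (algebraMap K' C (ν ^ M) * x + 1) = nn ν (CC.T x) (CC.S x) M := by
      rw [← Algebra.smul_def, N_smul_add_one, hN, nn]
      ring
    rw [h3, hNw, hg3, NN, map_pow]
    rfl

/-- **The element of the pencil.** -/
theorem exists_T_j {tr : D →ₗ[k] k}
    (htr : ∀ (x : C) (e : k), CC.T x = kk k K K' e → tr (ι x) = e) {j1 j2 : D}
    (hj1 : Wt t j1) (hj2 : Wt t j2) {γ1 γ2 : C} {e1 e2 e3 f1 f2 f3 : k}
    (he : HasE k K CC ι j1 γ1 e1 e2 e3) (hf : HasE k K CC ι j2 γ2 f1 f2 f3)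
    (hj20 : j2 ≠ 0) (hcop : Cop tr j1 j2) {S Sg : Set (HeightOneSpectrum (𝓞 k))}
    (hSf : S.Finite) (hSgf : Sg.Finite)
    (hE : ∀ v ∉ S, v.valuation k e1 ≤ 1 ∧ v.valuation k e2 ≤ 1 ∧ v.valuation k e3 = 1 ∧
      ¬ (v.valuation k (e1 ^ 2 - 3 * e2) < 1 ∧ v.valuation k (e1 * e2 - 9 * e3) < 1)) :
    ∃ (c : k) (j : D) (γ : C) (a1 a2 a3 : k), c ≠ 0 ∧ j ≠ 0 ∧ Wt t j ∧
      HasE k K CC ι j γ a1 a2 a3 ∧ (∀ c : K', algebraMap K' C c ≠ γ) ∧
      (∀ v ∈ Sg, v.valuation k (a3 / (c ^ 6 * f3) - 1) < 1) ∧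
      ∀ v, v ∉ S → v ∉ Sg → v.valuation k a1 ≤ 1 ∧ v.valuation k a2 ≤ 1 ∧ v.valuation k a3 ≤ 1 ∧
        ¬ (v.valuation k (a1 ^ 2 - 3 * a2) < 1 ∧ v.valuation k (a1 * a2 - 9 * a3) < 1) ∧
        ¬ (v.valuation k a2 < 1 ∧ v.valuation k a3 < 1) := by
  have hf3 := hf.ne hj20
  have hst : ∀ (c : k) (x : D), star (c • x) = c • star x := (Setting.sig hS).map_smul
  obtain ⟨c1, c2⟩ := cop_of_Cop hcop
  obtain ⟨z1, z2, z3⟩ := PE_eval CC htr (x := j1) (y := j2) (c := 0)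
    (by rw [zero_smul, add_zero]; exact he)
  have hz := (PE_eval CC htr (x := j2) (y := j1) (c := 0)
    (by rw [zero_smul, add_zero]; exact hf)).2.2
  -- the closeness at the places where the parameter is large
  have hδ : ∀ v : HeightOneSpectrum (𝓞 k), ∃ δ : Z0, δ ≠ 0 ∧ ∀ T : k, v.valuation k T < δ →
      v.valuation k (f3⁻¹ * (PE3 tr j2 j1).eval T - 1) < 1 := by
    intro v
    obtain ⟨δ, h1, -, h2⟩ := H74.ExT.exists_near_zero (v.valuation k) (Polynomial.C f3⁻¹ * PE3 tr j2 j1)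
    refine ⟨δ, h1, fun T hT => ?_⟩
    have h3 := h2 T hT
    rwa [eval_mul, eval_mul, eval_C, eval_C, hz, inv_mul_cancel₀ hf3] at h3
  choose δ hδ0 hδ using hδ
  obtain ⟨c, hc0, -, hcS, hcE⟩ := H74.ExT.exists_T (PE1 tr j1 j2) (PE2 tr j1 j2) (PE3 tr j1 j2) c1 c2
    hSf hSgf (by rw [z1, z2, z3]; exact hE) (fun _ => 1) (fun v => (δ v)⁻¹)
    (fun _ => one_ne_zero)
  have hW : Wt t (j1 + c • j2) := hj1.add (hj2.smul hst c)
  have hj0 : j1 + c • j2 ≠ 0 := by
    intro h0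
    obtain ⟨-, g2, g3⟩ := PE_zero tr c h0
    obtain ⟨A, A', hA⟩ := c2
    have hA' := congrArg (eval c) hA
    rw [eval_add, eval_mul, eval_mul, g2, g3, eval_one, mul_zero, mul_zero, add_zero] at hA'
    exact zero_ne_one hA'
  obtain ⟨γ, a1, a2, a3, ha⟩ := exists_E hS hSC h hdC ht CC hj0 hW
  obtain ⟨E1, E2, E3⟩ := PE_eval CC htr ha
  refine ⟨c, j1 + c • j2, γ, a1, a2, a3, hc0, hj0, hW, ha, ?_, ?_, ?_⟩
  · intro b hb
    obtain ⟨g1, g2⟩ := ha.center hb
    obtain ⟨A, A', hA⟩ := c1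
    have hA' := congrArg (eval c) hA
    simp only [eval_add, eval_mul, eval_sub, eval_pow, eval_ofNat, E1, E2, E3, g1, g2, eval_one,
      mul_zero, add_zero] at hA'
    exact zero_ne_one hA'
  · intro v hv
    have h1 : v.valuation k c⁻¹ < δ v := by
      rw [map_inv₀]
      exact inv_lt_of_inv_lt₀ (zero_lt_iff.mpr (hδ0 v)) (hcS v hv)
    have h2 := hδ v _ h1
    have h3 := PE3_flip tr j1 j2 hc0
    rw [E3] at h3
    have h4 : a3 / (c ^ 6 * f3) = f3⁻¹ * (PE3 tr j2 j1).eval c⁻¹ := by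
      rw [h3]
      field_simp
    rw [h4]
    exact h2
  · intro v hv hv'
    obtain ⟨-, g1, g2, g3, g4, g5⟩ := hcE v hv hv'
    rw [E1] at g1 g4
    rw [E2] at g2 g4 g5
    rw [E3] at g3 g4 g5
    exact ⟨g1, g2, g3, g4, g5⟩

end frm

end Vale.Agent.P011.H359
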