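import Vale.Agent.P011.H359.Dbl2

/-!
The element `j` attached to an element of the centralizer near one.
-/

open NumberField IsDedekindDomain Module Polynomial

set_option linter.unusedSectionVars false

namespace Vale.Agent.P011.H359

open Vale.Agent.P011.Arith Vale.Agent.P011.Even Vale.Agent.P011.Two Vale.Agent.P011.One
open Vale.Agent.P011.Pow hiding exists_x2 nrd_near exists_numbers
open Vale.Agent.P011.H775 (Cub)

/-- The property of the output. -/
structure GoodJ (k K : Type) {D K' C : Type} [Field k] [NumberField k] [Field K] [Field K']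
    [NumberField K'] [Ring D] [StarRing D] [Ring C] [Algebra k K] [Algebra K K'] [Algebra K' C]
    [Algebra k K'] (CC : Cub K' C) (ι : C →+* D) (δ : kˣ) (t : D)
    (S : Set (HeightOneSpectrum (𝓞 k))) (ν : K') (j : D) (γ : C) (a1 a2 a3 : k) : Prop where
  ne : j ≠ 0
  wt : Wt t j
  has : HasE k K CC ι j γ a1 a2 a3
  gen : ∀ c : K', algebraMap K' C c ≠ γ
  ram : ∀ (F : Type) [Field F] [NumberField F] [Algebra k F] (β : Fˣ),
    (β : F) ^ 3 - algebraMap k F a1 * (β : F) ^ 2 + algebraMap k F a2 * β -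
      algebraMap k F a3 = 0 → ∀ v ∉ S, ∀ ω : HeightOneSpectrum (𝓞 F),
        ω.asIdeal.comap (algebraMap (𝓞 k) (𝓞 F)) = v.asIdeal →
          β ∈ NF (inc k F δ) ⊔ LS (ω.valuation F)
  loc : ∀ (E : Type) [Field E] [NumberField E] [Algebra K' E], finrank K' E = 3 → ∀ θ : E,
    θ ^ 3 - algebraMap K' E (algebraMap k K' a1) * θ ^ 2 +
      algebraMap K' E (algebraMap k K' a2) * θ - algebraMap K' E (algebraMap k K' a3) = 0 →
    (∀ c : K', algebraMap K' E c ≠ θ) → ∀ v ∉ S, ∀ V : HeightOneSpectrum (𝓞 K'),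
      V.asIdeal.comap (algebraMap (𝓞 k) (𝓞 K')) = v.asIdeal →
        ∃ e : E, V.valuation K' (ν / Algebra.norm K' e - 1) < V.valuation K' ((3 : K') ^ 2)

section frm

variable {k K D L K' C : Type} [Field k] [NumberField k] [Field K] [NumberField K] [StarRing K]
  [DivisionRing D] [StarRing D] [Algebra k K] [Algebra k D] [Algebra K D] [IsScalarTower k K D]
  [Field L] [NumberField L] [Algebra k L] [Field K'] [StarRing K'] [NumberField K']
  [Algebra K K'] [DivisionRing C] [StarRing C] [Algebra L K'] [Algebra L C] [Algebra K' C]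
  [IsScalarTower L K' C] {d : kˣ} {s : K} {a : kˣ} {t : D} {T : L} {ι : C →+* D}

variable (hS : Setting k K D d s) (hSC : Setting L K' C (inc k L d) (algebraMap K K' s))
  (h : IsCent k K D L K' C t a T ι) (hdC : finrank K' C = 3 ^ 2) (ht : t ∈ Xa D a)
  (CC : Cub K' C)

include hS hSC h hdC ht

variable [Algebra k K'] [IsScalarTower k K K']

/-- **The element attached to an element of the centralizer near one.** -/
theorem exists_good_j {N : ℕ} (B : Module.Basis (Fin N) k D)
    (hw : ∃ w : D, star w = -w ∧ w * t = -(t * w) ∧ ∀ c : k, algebraMap k D c ≠ w * w) :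
    ∃ (S : Set (HeightOneSpectrum (𝓞 k))) (c : Z0) (ε : ℝ), S.Finite ∧ c ≠ 0 ∧ 0 < ε ∧
      (∀ v ∉ S, v.valuation k 6 = 1) ∧
      ∀ (x : C) (p u : k), p ^ 2 - (a * d : kˣ) * u ^ 2 = 1 →
        CC.N x = kk k K K' p + kk k K K' u * om K' s T →
        (∀ v ∈ S, v.valuation k (p - 1) < c ∧ v.valuation k u < c) →
        (∀ v ∈ S, nm B (.inl v) (ι x - 1) < ε) →
        ∃ (j : D) (γ : C) (a1 a2 a3 : k), GoodJ k K CC ι (a * d) t S
          (kk k K K' p + kk k K K' u * om K' s T) j γ a1 a2 a3 := by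
  have hkk : ∀ c : k, kk k K K' c = algebraMap k K' c := fun c =>
    (IsScalarTower.algebraMap_apply k K K' c).symm
  obtain ⟨tr, htr⟩ := exists_tr hS hSC h hdC ht CC
  have i3 := hSC.fin
  obtain ⟨j1, γ1, e1, e2, e3, hj0, hj1, he, h12, hnk⟩ := H974.exists_base hS hSC h hdC ht CC hw
  have hcop := H974.cop_base h hdC CC htr he h12 hnk
  have he3 := he.ne hj0
  obtain ⟨g, hg0, hg⟩ := he.center' (H974.not_center h he hnk)
  obtain ⟨S0, hS0, hS0'⟩ := exists_bad (a * d) he3 hg0 hg
  obtain ⟨v0⟩ := nonempty_prime (F := k)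
  obtain ⟨ε0, hε0, hcn⟩ := H83.CopNear.cop_near B (.inl v0) tr j1 ((4 : k) • j1 ^ 3) hcop
  have h4j : (4 : k) • j1 ^ 3 ≠ 0 := smul_ne_zero (by norm_num) (pow_ne_zero 3 hj0)
  have hpos := nm_pos B (.inl v0) h4j
  obtain ⟨ε, hε, c, hc, hnt⟩ := H14.near_two hS h B v0 j1 (lt_min hε0 hpos)
  refine ⟨insert v0 S0, c, ε, hS0.insert v0, hc, hε, ?_, ?_⟩
  · intro v hv
    exact (hS0' v fun h1 => hv (Set.mem_insert_of_mem _ h1)).1
  intro x p u hpu hN hpc hx
  have hS' : ∀ v ∉ insert v0 S0, v.valuation k 6 = 1 ∧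
      v.valuation k ((a * d : kˣ) : k) = 1 ∧ v.valuation k e1 ≤ 1 ∧ v.valuation k e2 ≤ 1 ∧
      v.valuation k e3 = 1 ∧ ¬ (v.valuation k (e1 ^ 2 - 3 * e2) < 1 ∧
        v.valuation k (e1 * e2 - 9 * e3) < 1) :=
    fun v hv => hS0' v fun h1 => hv (Set.mem_insert_of_mem _ h1)
  set S := insert v0 S0 with hSdef
  have hSf : S.Finite := hS0.insert v0
  -- the places where the norm is not a unit
  obtain ⟨Sg, hSg⟩ : ∃ Sg : Set (HeightOneSpectrum (𝓞 k)),
      Sg = {v | v ∉ S ∧ 1 < v.valuation k u} := ⟨_, rfl⟩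
  have hSgf : Sg.Finite := by
    rcases eq_or_ne u 0 with rfl | hu
    · refine Set.Finite.subset Set.finite_empty ?_
      rw [hSg]
      rintro v ⟨-, hv⟩
      rw [map_zero] at hv
      exact absurd hv (not_lt.mpr zero_le_one)
    · refine (finite_valuation_ne_one u hu).subset ?_
      rw [hSg]
      rintro v ⟨-, hv⟩
      exact hv.ne'
  have hmul := nu_mul hS h hpu
  set ν := kk k K K' p + kk k K K' u * om K' s T with hν
  set ν' := kk k K K' p - kk k K K' u * om K' s T with hν'
  have hν0 : ν ≠ 0 := left_ne_zero_of_mul_eq_one hmul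
  have hsum : ν + ν' = algebraMap k K' (2 * p) := by
    rw [hν, hν', ← hkk, map_mul, map_ofNat]
    ring
  obtain ⟨M, n, j2, hj2, hW2, hf3', hMV⟩ := exists_j2 hS hSC h hdC ht CC hj0 hj1 he hpu hN
    (ov_finite (E := K') hSgf)
  have hnear : nm B (.inl v0) (j2 - (4 : k) • j1 ^ 3) <
      min ε0 (nm B (.inl v0) ((4 : k) • j1 ^ 3)) := by
    rw [hj2]
    have h1 := hpc v0 (Set.mem_insert _ _)
    exact hnt x p u h1.1 h1.2 (hx v0 (Set.mem_insert _ _)) M
  have hj20 : j2 ≠ 0 := by
    rintro rfl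
    rw [zero_sub, nm_neg] at hnear
    exact absurd (hnear.trans_le (min_le_right _ _)) (lt_irrefl _)
  obtain ⟨γ2, f1, f2, f3, hf⟩ := exists_E hS hSC h hdC ht CC hj20 hW2
  have hf3 := hf.ne hj20
  have hfn := hf3' γ2 f1 f2 f3 hf
  have hn0 : n ≠ 0 := by
    rintro rfl
    rw [zero_mul] at hfn
    exact hf3 ((_root_.map_eq_zero (kk k K K')).mp hfn)
  obtain ⟨q, j, γ, a1, a2, a3, hq0, hjn, hWj, ha, hgen, hSgv, hout⟩ :=
    exists_T_j hS hSC h hdC ht CC htr hj1 hW2 he hf hj20
      (hcn j2 (hnear.trans_le (min_le_left _ _))) hSf hSgf (fun v hv => (hS' v hv).2.2)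
  refine ⟨j, γ, a1, a2, a3, hjn, hWj, ha, hgen, ?_, ?_⟩
  · -- the ramification
    intro F _ _ _ β hβ v hv ω hω
    obtain ⟨w6, wδ, w1, w2, w3, w4⟩ := hS' v hv
    have w2' : v.valuation k 2 = 1 := by
      have hi : ∀ m : ℕ, v.valuation k (m : k) ≤ 1 := by
        intro m
        have := v.valuation_le_one (K := k) (m : 𝓞 k)
        simpa using this
      have e : (6 : k) = ((2 : ℕ) : k) * ((3 : ℕ) : k) := by norm_num
      rw [e, map_mul] at w6
      have h4 : v.valuation k ((2 : ℕ) : k) = 1 := by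
        refine le_antisymm (hi 2) ?_
        rw [← w6]
        exact mul_le_of_le_one_right' (hi 3)
      simpa using h4
    by_cases hvs : v ∈ Sg
    · rw [hSg] at hvs
      exact H974.ram_split (a * d) w2' wδ hpu hvs.2 hω β
    · obtain ⟨g1, g2, g3, g4, g5⟩ := hout v hv hvs
      obtain ⟨p', q', hp1, hp2⟩ := e3_mul hS hSC h hdC ht CC hj0 hjn hj1 hWj he ha
      exact H974.ram_out (a * d) β w2' wδ g1 g2 g3 g5 hβ hp1 hp2 w3 hω
  · -- the local norms
    intro E _ _ _ hE θ hθ hθgen v hv V hV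
    obtain ⟨w6, wδ, w1, w2, w3, w4⟩ := hS' v hv
    have hV6 : V.valuation K' 6 = 1 := by
      have h1 := (val_eq_one_iff hV (6 : k)).mpr w6
      rwa [map_ofNat] at h1
    have hV3 : V.valuation K' ((3 : K') ^ 2) = 1 := by
      have hi : ∀ m : ℕ, V.valuation K' (m : K') ≤ 1 := by
        intro m
        have := V.valuation_le_one (K := K') (m : 𝓞 K')
        simpa using this
      have e : (6 : K') = ((2 : ℕ) : K') * ((3 : ℕ) : K') := by norm_num
      rw [e, map_mul] at hV6
      have h4 : V.valuation K' ((3 : ℕ) : K') = 1 := by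
        refine le_antisymm (hi 3) ?_
        rw [← hV6]
        exact mul_le_of_le_one_left' (hi 2)
      rw [map_pow]
      have h5 : V.valuation K' (3 : K') = 1 := by simpa using h4
      rw [h5, one_pow]
    by_cases hvs : v ∈ Sg
    · have hvs' := hvs
      rw [hSg] at hvs'
      have hpv := val_p_eq (v.valuation k) wδ hpu hvs'.2
      have w2' : v.valuation k 2 = 1 := by
        have hi : ∀ m : ℕ, v.valuation k (m : k) ≤ 1 := by
          intro m
          have := v.valuation_le_one (K := k) (m : 𝓞 k)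
          simpa using this
        have e : (6 : k) = ((2 : ℕ) : k) * ((3 : ℕ) : k) := by norm_num
        rw [e, map_mul] at w6
        have h4 : v.valuation k ((2 : ℕ) : k) = 1 := by
          refine le_antisymm (hi 2) ?_
          rw [← w6]
          exact mul_le_of_le_one_right' (hi 3)
        simpa using h4
      have hne : V.valuation K' ν ≠ 1 := by
        refine nu_ne _ hmul hsum ?_
        have h1 := (val_lt_val_iff hV (1 : k) (2 * p)).mpr (by
          rw [map_one, map_mul, w2', one_mul, hpv]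
          exact hvs'.2)
        rwa [map_one, map_one] at h1
      have hNθ := norm_root hE hθ hθgen
      have hx1 : V.valuation K' (algebraMap k K' a3 / (algebraMap k K' q ^ 6 *
          algebraMap k K' f3) - 1) < 1 := by
        have h1 := (val_lt_val_iff hV (a3 / (q ^ 6 * f3) - 1) 1).mpr (by
          rw [map_one]
          exact hSgv v hvs)
        rwa [map_one, map_one, map_sub, map_div₀, map_mul, map_pow, map_one] at h1
      have hq0' : algebraMap k K' q ≠ 0 := (_root_.map_ne_zero _).mpr hq0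
      have he0' : algebraMap k K' e3 ≠ 0 := (_root_.map_ne_zero _).mpr he3
      rw [hkk, hkk] at hfn
      obtain ⟨m1, m2⟩ := hMV V ⟨v, hvs, hV⟩
      rw [hV3]
      rcases lt_or_gt_of_ne hne with hlt | hgt
      · exact loc_lt hE _ M hNθ hq0' he0' hν0 hn0 hfn hx1 (m1 hlt)
      · exact loc_gt hE _ M hNθ hq0' he0' hν0 hn0 hfn hx1 (m2 hgt)
    · have hu1 : v.valuation k u ≤ 1 := by
        by_contra hu1
        exact hvs (by rw [hSg]; exact ⟨hv, not_le.mp hu1⟩)
      have hp1 := val_p_le (v.valuation k) wδ hpu hu1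
      have hVk : ∀ c : k, v.valuation k c ≤ 1 → V.valuation K' (kk k K K' c) ≤ 1 := by
        intro c hc
        rw [hkk]
        exact (val_le_one_iff hV c).mpr hc
      have hVo : V.valuation K' (om K' s T) ≤ 1 := by
        have h1 := congrArg (V.valuation K') (om_sq hS h)
        rw [map_mul, hkk, (val_eq_one_iff hV _).mpr (by rw [← Units.val_mul]; exact wδ),
          ← pow_two] at h1
        exact ((pow_le_one_iff two_ne_zero).mp h1.le)
      have hVuo : V.valuation K' (kk k K K' u * om K' s T) ≤ 1 := by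
        rw [map_mul]
        exact mul_le_one' (hVk u hu1) hVo
      have hV1 : V.valuation K' ν = 1 := by
        refine nu_eq _ hmul ?_ ?_
        · exact (Valuation.map_add_le _ (hVk p hp1) hVuo)
        · rw [hν', sub_eq_add_neg]
          exact (Valuation.map_add_le _ (hVk p hp1) (by rw [Valuation.map_neg]; exact hVuo))
      obtain ⟨g1, g2, g3, g4, g5⟩ := hout v hv hvs
      refine H929.loc_of_not_cube hE V hV6 ((val_le_one_iff hV _).mpr g1)
        ((val_le_one_iff hV _).mpr g2) ((val_le_one_iff hV _).mpr g3) ?_ hθ hθgen hV1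
      rintro ⟨b1, b2⟩
      refine g4 ⟨?_, ?_⟩
      · refine (val_lt_one_iff hV _).mp ?_
        rw [map_sub, map_mul, map_pow, map_ofNat]
        exact b1
      · refine (val_lt_one_iff hV _).mp ?_
        rw [map_sub, map_mul, map_mul, map_ofNat]
        exact b2

end frm

end Vale.Agent.P011.H359
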