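import Vale.Agent.P011.H359.Pen
import Mathlib.Algebra.Polynomial.Degree.Lemmas

/-!
The polynomials of a pencil `x + T y` in an algebra with a linear form.
-/

open Polynomial

set_option linter.unusedSectionVars false

namespace Vale.Agent.P011.H359

section pwr

variable {k D : Type} [Field k] [Ring D] [Algebra k D]

/-- The polynomial with value `tr ((x + T y) ^ n)` at `T`. -/
noncomputable def pwr (tr : D →ₗ[k] k) (x y : D) (n : ℕ) : k[X] :=
  ∑ i ∈ Finset.range (n + 1), C (tr (((C x + C y * X) ^ n : D[X]).coeff i)) * X ^ i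

theorem pen_natDegree (x y : D) (n : ℕ) : ((C x + C y * X) ^ n : D[X]).natDegree ≤ n := by
  have h1 : (C x + C y * X : D[X]).natDegree ≤ 1 := by
    refine (natDegree_add_le _ _).trans (max_le (by simp) ?_)
    exact (natDegree_C_mul_le _ _).trans natDegree_X_le
  refine natDegree_pow_le.trans ?_
  calc n * _ ≤ n * 1 := Nat.mul_le_mul_left n h1
    _ = n := mul_one n

theorem pwr_natDegree (tr : D →ₗ[k] k) (x y : D) (n : ℕ) : (pwr tr x y n).natDegree ≤ n := by
  rw [pwr]
  refine natDegree_sum_le_of_forall_le _ _ fun i hi => ?_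
  refine (natDegree_C_mul_X_pow_le _ _).trans ?_
  have := Finset.mem_range.mp hi
  omega

theorem pwr_eval (tr : D →ₗ[k] k) (x y : D) (n : ℕ) (T : k) :
    (pwr tr x y n).eval T = tr ((x + T • y) ^ n) := by
  let ev : D[X] →+* D := eval₂RingHom' (RingHom.id D) (algebraMap k D T) fun a =>
    (Algebra.commutes T a).symm
  have h1 : ev (C x + C y * X) = x + T • y := by
    change eval₂ (RingHom.id D) (algebraMap k D T) (C x + C y * X) = _
    rw [eval₂_add, eval₂_C, eval₂_mul_X, eval₂_C, RingHom.id_apply, RingHom.id_apply,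
      ← Algebra.commutes, ← Algebra.smul_def]
  have h2 : (x + T • y) ^ n = ∑ i ∈ Finset.range (n + 1),
      T ^ i • ((C x + C y * X) ^ n : D[X]).coeff i := by
    rw [← h1, ← map_pow]
    change eval₂ (RingHom.id D) (algebraMap k D T) ((C x + C y * X) ^ n) = _
    rw [eval₂_eq_sum_range' _ (Nat.lt_succ_of_le (pen_natDegree x y n))]
    refine Finset.sum_congr rfl fun i _ => ?_
    rw [RingHom.id_apply, ← map_pow, ← Algebra.commutes, ← Algebra.smul_def]
  rw [h2, pwr, eval_finsetSum, map_sum]
  refine Finset.sum_congr rfl fun i _ => ?_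
  rw [map_smul, eval_mul, eval_C, eval_pow, eval_X, smul_eq_mul, mul_comm]

/-- The three coefficients. -/
noncomputable def PE1 (tr : D →ₗ[k] k) (x y : D) : k[X] := pwr tr x y 2

noncomputable def PE2 (tr : D →ₗ[k] k) (x y : D) : k[X] :=
  C (1 / 2) * (PE1 tr x y ^ 2 - pwr tr x y 4)

noncomputable def PE3 (tr : D →ₗ[k] k) (x y : D) : k[X] :=
  C (1 / 6) * (PE1 tr x y ^ 3 - 3 * PE1 tr x y * pwr tr x y 4 + 2 * pwr tr x y 6)

theorem PE1_natDegree (tr : D →ₗ[k] k) (x y : D) : (PE1 tr x y).natDegree ≤ 2 :=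
  pwr_natDegree tr x y 2

theorem PE2_natDegree (tr : D →ₗ[k] k) (x y : D) : (PE2 tr x y).natDegree ≤ 4 := by
  rw [PE2]
  refine (natDegree_C_mul_le _ _).trans ((natDegree_sub_le _ _).trans (max_le ?_
    (pwr_natDegree tr x y 4)))
  refine natDegree_pow_le.trans ?_
  have := PE1_natDegree tr x y
  omega

theorem PE3_natDegree (tr : D →ₗ[k] k) (x y : D) : (PE3 tr x y).natDegree ≤ 6 := by
  rw [PE3]
  have h1 := PE1_natDegree tr x y
  have h2 := pwr_natDegree tr x y 4
  have h3 := pwr_natDegree tr x y 6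
  refine (natDegree_C_mul_le _ _).trans ((natDegree_add_le _ _).trans (max_le
    ((natDegree_sub_le _ _).trans (max_le ?_ ?_)) ?_))
  · refine natDegree_pow_le.trans ?_
    omega
  · refine (natDegree_mul_le).trans ?_
    have h4 : (3 * PE1 tr x y).natDegree ≤ 2 := by
      refine natDegree_mul_le.trans ?_
      have : (3 : k[X]).natDegree = 0 := by
        exact_mod_cast natDegree_natCast (R := k) 3
      omega
    omega
  · refine natDegree_mul_le.trans ?_
    have : (2 : k[X]).natDegree = 0 := by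
      exact_mod_cast natDegree_natCast (R := k) 2
    omega

/-- The resultants of the pencil do not vanish. -/
def Cop (tr : D →ₗ[k] k) (x y : D) : Prop :=
  resultant (PE1 tr x y ^ 2 - 3 * PE2 tr x y) (PE1 tr x y * PE2 tr x y - 9 * PE3 tr x y) 4 6 ≠ 0 ∧
    resultant (PE2 tr x y) (PE3 tr x y) 4 6 ≠ 0

end pwr

end Vale.Agent.P011.H359
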