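import Vale.Agent.P011.H359.Frm
import Vale.Agent.P011.H359.PenD

/-!
The coefficients of the square of an antisymmetric element anticommuting with `t`.
-/

open NumberField IsDedekindDomain Module Polynomial

set_option linter.unusedSectionVars false

namespace Vale.Agent.P011.H359

open Vale.Agent.P011.Arith Vale.Agent.P011.Even Vale.Agent.P011.Two Vale.Agent.P011.One
open Vale.Agent.P011.Pow hiding exists_x2 nrd_near exists_numbers
open Vale.Agent.P011.H775 (Cub)

/-- The antisymmetric elements which anticommute with `t`. -/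
structure Wt {D : Type} [Ring D] [StarRing D] (t w : D) : Prop where
  st : star w = -w
  an : w * t = -(t * w)

section wt

variable {D : Type} [DivisionRing D] [StarRing D] {t : D}

omit [StarRing D] in
theorem inv_anti {u : D} (hu : u ≠ 0) (hut : u * t = -(t * u)) : u⁻¹ * t = -(t * u⁻¹) := by
  have h1 : u * (t * u⁻¹) * u = u * (-(u⁻¹ * t)) * u := by
    rw [← mul_assoc, inv_mul_cancel_right₀ hu, hut, mul_neg, ← mul_assoc, mul_inv_cancel₀ hu,
      one_mul, neg_mul]
  have h2 := mul_left_cancel₀ hu (mul_right_cancel₀ hu h1)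
  rw [h2, neg_neg]

theorem Wt.add {v w : D} (hv : Wt t v) (hw : Wt t w) : Wt t (v + w) :=
  ⟨by rw [star_add, hv.st, hw.st, neg_add], by rw [add_mul, mul_add, hv.an, hw.an, neg_add]⟩

theorem Wt.comm {w : D} (hw : Wt t w) : w * w * t = t * (w * w) := by
  rw [mul_assoc, hw.an, mul_neg, ← mul_assoc, hw.an, neg_mul, neg_neg, mul_assoc]

theorem Wt.cube {w : D} (hw : Wt t w) : Wt t (w ^ 3) := by
  have e : w ^ 3 = w * (w * w) := by rw [pow_succ', pow_two]
  constructor
  · rw [e, star_mul, star_mul, hw.st, neg_mul_neg, mul_neg, mul_assoc]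
  · rw [e, mul_assoc, hw.comm, ← mul_assoc, hw.an, neg_mul, mul_assoc]

theorem Wt.congr {w : D} (hw : Wt t w) {x : D} (hx : x * t = t * x) (ht : star t = t) :
    Wt t (x * w * star x) := by
  have hx' : star x * t = t * star x := by
    have h1 := congrArg star hx
    rw [star_mul, star_mul, ht] at h1
    exact h1.symm
  constructor
  · rw [star_mul, star_mul, star_star, hw.st, neg_mul, mul_neg, mul_assoc]
  · rw [mul_assoc, hx', ← mul_assoc, mul_assoc x, hw.an, mul_neg, neg_mul, ← mul_assoc, hx]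
    simp only [mul_assoc]

theorem Wt.smul {k : Type} [Field k] [Algebra k D] {w : D} (hw : Wt t w)
    (hst : ∀ (c : k) (x : D), star (c • x) = c • star x) (c : k) : Wt t (c • w) :=
  ⟨by rw [hst, hw.st, smul_neg], by rw [smul_mul_assoc, mul_smul_comm, hw.an, smul_neg]⟩

end wt

section frm

variable {k K D L K' C : Type} [Field k] [NumberField k] [Field K] [NumberField K] [StarRing K]
  [DivisionRing D] [StarRing D] [Algebra k K] [Algebra k D] [Algebra K D] [IsScalarTower k K D]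
  [Field L] [NumberField L] [Algebra k L] [Field K'] [StarRing K'] [NumberField K']
  [Algebra K K'] [DivisionRing C] [StarRing C] [Algebra L K'] [Algebra L C] [Algebra K' C]
  [IsScalarTower L K' C] {d : kˣ} {s : K} {a : kˣ} {t : D} {T : L} {ι : C →+* D}

/-- The coefficients `e₁, e₂, e₃` of the reduced characteristic polynomial of `w²`. -/
structure HasE (k K : Type) {D K' C : Type} [Field k] [Field K] [Field K'] [Ring D] [Ring C]
    [Algebra k K] [Algebra K K'] [Algebra K' C] (CC : Cub K' C) (ι : C →+* D) (w : D) (γ : C)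
    (e1 e2 e3 : k) : Prop where
  sq : ι γ = w * w
  T : CC.T γ = kk k K K' e1
  S : CC.S γ = kk k K K' e2
  N : CC.N γ = kk k K K' e3

variable (hS : Setting k K D d s) (hSC : Setting L K' C (inc k L d) (algebraMap K K' s))
  (h : IsCent k K D L K' C t a T ι) (hdC : finrank K' C = 3 ^ 2) (ht : t ∈ Xa D a)
  (CC : Cub K' C)

include hS hSC h hdC ht

/-- The coefficients of a symmetric element which commutes with an element anticommuting with
`t`. -/
theorem coeff_k {w : D} (hw0 : w ≠ 0) (hw : w * t = -(t * w)) {γ : C} (hγ : star γ = γ)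
    (hγw : w * ι γ = ι γ * w) :
    ∃ e1 e2 e3 : k, CC.T γ = kk k K K' e1 ∧ CC.S γ = kk k K K' e2 ∧ CC.N γ = kk k K K' e3 := by
  have i3 := hSC.fin
  have i4 := hSC.cen
  obtain ⟨θ, τ, hθ, hθτ, hτK, hτT⟩ := exists_theta h hw0 hw
  have h1 : θ γ = γ := by
    apply h.inj
    rw [hθ, hγw, mul_assoc, mul_inv_cancel₀ hw0, mul_one]
  obtain ⟨t1, t2, t3⟩ := semi_coeff CC hdC θ τ hθτ γ
  obtain ⟨s1, s2, s3⟩ := CC.star_coeff hdC (fun c => hSC.star_alg c) γ
  rw [h1] at t1 t2 t3
  rw [hγ] at s1 s2 s3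
  obtain ⟨e1, he1⟩ := fix_k hS hSC h ht hτK hτT s1.symm t1.symm
  obtain ⟨e2, he2⟩ := fix_k hS hSC h ht hτK hτT s2.symm t2.symm
  obtain ⟨e3, he3⟩ := fix_k hS hSC h ht hτK hτT s3.symm t3.symm
  exact ⟨e1, e2, e3, he1, he2, he3⟩

theorem exists_E {w : D} (hw0 : w ≠ 0) (hw : Wt t w) :
    ∃ (γ : C) (e1 e2 e3 : k), HasE k K CC ι w γ e1 e2 e3 := by
  obtain ⟨γ, hγ⟩ := (h.range (w * w)).mp hw.comm
  have h1 : star γ = γ := by
    apply h.inj
    rw [h.star, hγ, star_mul, hw.st, neg_mul_neg]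
  obtain ⟨e1, e2, e3, g1, g2, g3⟩ := coeff_k hS hSC h hdC ht CC hw0 hw.an h1 (by
    rw [hγ, mul_assoc])
  exact ⟨γ, e1, e2, e3, hγ, g1, g2, g3⟩

/-- **The constant coefficients of two squares** differ by a norm from `k (s t)`. -/
theorem e3_mul {v w : D} (hv0 : v ≠ 0) (hw0 : w ≠ 0) (hv : Wt t v) (hw : Wt t w) {γ γ' : C}
    {e1 e2 e3 f1 f2 f3 : k} (he : HasE k K CC ι v γ e1 e2 e3) (hf : HasE k K CC ι w γ' f1 f2 f3) :
    ∃ p q : k, f3 = (p ^ 2 - (a * d : kˣ) * q ^ 2) * e3 ∧ (p ^ 2 - (a * d : kˣ) * q ^ 2) ≠ 0 := by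
  have i3 := hSC.fin
  have i4 := hSC.cen
  obtain ⟨θ, τ, hθ, hθτ, hτK, hτT⟩ := exists_theta h hv0 hv.an
  have hvt : v⁻¹ * t = -(t * v⁻¹) := inv_anti hv0 hv.an
  obtain ⟨x, hx⟩ := (h.range (w * v⁻¹)).mp (by
    rw [mul_assoc, hvt, mul_neg, ← mul_assoc, hw.an, neg_mul, neg_neg, mul_assoc])
  have hθs : θ (star x) = x := by
    apply h.inj
    rw [hθ, h.star, hx, star_mul, star_inv₀, hv.st, hw.st, inv_neg, neg_mul_neg, ← mul_assoc,
      mul_inv_cancel₀ hv0, one_mul]
  have hN : τ (star (CC.N x)) = CC.N x := by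
    rw [← (CC.star_coeff hdC (fun c => hSC.star_alg c) x).2.2,
      ← (semi_coeff CC hdC θ τ hθτ (star x)).2.2, hθs]
  obtain ⟨p, q, hpq⟩ := fix_i hS hSC h ht hτK hτT hN
  have hγ' : γ' = x * θ x * γ := by
    apply h.inj
    rw [map_mul, map_mul, hθ, hx, he.sq, hf.sq]
    calc w * w = w * (v⁻¹ * v) * w * (v⁻¹ * (v⁻¹ * v) * v) := by
          rw [inv_mul_cancel₀ hv0, mul_one, mul_one, inv_mul_cancel₀ hv0, mul_one]
      _ = w * v⁻¹ * (v * (w * v⁻¹) * v⁻¹) * (v * v) := by simp only [mul_assoc]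
  have hom : τ (om K' s T) = -om K' s T := by
    rw [om, map_mul, hτK, hτT, mul_neg]
  have hkk : ∀ c : k, τ (kk k K K' c) = kk k K K' c := fun c => hτK _
  have h1 : kk k K K' f3 = kk k K K' ((p ^ 2 - (a * d : kˣ) * q ^ 2) * e3) := by
    rw [← hf.N, hγ', CC.N_mul, CC.N_mul, (semi_coeff CC hdC θ τ hθτ x).2.2, he.N, hpq, map_add,
      map_mul, hkk, hkk, hom, map_mul, map_sub, map_pow, map_mul, map_pow, Units.val_mul]
    have h2 := om_sq hS h
    linear_combination (-(kk k K K' q) ^ 2 * kk k K K' e3) * h2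
  have h3 := (kk k K K').injective h1
  refine ⟨p, q, h3, fun h0 => ?_⟩
  rw [h0, zero_mul] at h3
  have h4 := hf.N
  rw [h3, map_zero] at h4
  have h5 : γ' = 0 := CC.N_eq_zero.mp h4
  have h6 := hf.sq
  rw [h5, map_zero] at h6
  exact mul_ne_zero hw0 hw0 h6.symm

/-- The constant coefficient of the square of a congruent element. -/
theorem e3_congr {v : D} (hv0 : v ≠ 0) (hv : Wt t v) (x : C) {γ γ' : C}
    {e1 e2 e3 f1 f2 f3 : k} (he : HasE k K CC ι v γ e1 e2 e3)
    (hf : HasE k K CC ι (ι x * v * star (ι x)) γ' f1 f2 f3) :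
    ∃ τ : K' →+* K', (∀ c : K, τ (algebraMap K K' c) = algebraMap K K' c) ∧
      τ (algebraMap L K' T) = -algebraMap L K' T ∧
      kk k K K' f3 = CC.N x * star (CC.N x) * τ (CC.N x) * τ (star (CC.N x)) * kk k K K' e3 := by
  have i3 := hSC.fin
  have i4 := hSC.cen
  obtain ⟨θ, τ, hθ, hθτ, hτK, hτT⟩ := exists_theta h hv0 hv.an
  refine ⟨τ, hτK, hτT, ?_⟩
  have hγ' : γ' = x * θ (star x * x) * γ * star x := by
    apply h.inj
    rw [map_mul, map_mul, map_mul, hθ, he.sq, hf.sq, map_mul, h.star]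
    calc ι x * v * star (ι x) * (ι x * v * star (ι x)) =
        ι x * v * (star (ι x) * ι x) * (v⁻¹ * v) * v * star (ι x) := by
          rw [inv_mul_cancel₀ hv0, mul_one]
          simp only [mul_assoc]
      _ = ι x * (v * (star (ι x) * ι x) * v⁻¹) * (v * v) * star (ι x) := by
          simp only [mul_assoc]
  rw [← hf.N, hγ', CC.N_mul, CC.N_mul, CC.N_mul, (semi_coeff CC hdC θ τ hθτ _).2.2, CC.N_mul,
    (CC.star_coeff hdC (fun c => hSC.star_alg c) x).2.2, he.N, map_mul]
  ring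

omit h hdC ht hSC hS in
theorem hasE_cube {v : D} {γ : C} {e1 e2 e3 : k} (he : HasE k K CC ι v γ e1 e2 e3) {γ' : C}
    {f1 f2 f3 : k} (hf : HasE k K CC ι (v ^ 3) γ' f1 f2 f3) (hi : Function.Injective ι) :
    f3 = e3 ^ 3 := by
  have hγ : γ' = γ * γ * γ := by
    apply hi
    rw [hf.sq, map_mul, map_mul, he.sq]
    have : v ^ 3 = v * v * v := by rw [pow_succ, pow_two]
    rw [this]
    simp only [mul_assoc]
  apply (kk k K K').injective
  rw [← hf.N, hγ, CC.N_mul, CC.N_mul, he.N, map_pow]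
  ring

/-- **The linear form** which computes the reduced trace. -/
theorem exists_tr : ∃ tr : D →ₗ[k] k, ∀ (x : C) (e : k), CC.T x = kk k K K' e → tr (ι x) = e := by
  have ht0 : t ≠ 0 := by
    intro h0
    have h1 := h.sq
    rw [h0, mul_zero] at h1
    exact a.ne_zero ((algebraMap k D).injective (by rw [← h1, map_zero]))
  have hcharD : CharZero D := charZero_of_injective_algebraMap (algebraMap k D).injective
  have hcent : ∀ z : D, t * t * z = z * (t * t) := by
    intro z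
    rw [h.sq, Algebra.commutes]
  have hex : ∀ z : D, ∃ y : C, ι y = z + t * z * t⁻¹ := by
    intro z
    refine (h.range _).mp ?_
    rw [add_mul, mul_add, mul_assoc, mul_assoc, inv_mul_cancel₀ ht0, mul_one, ← mul_assoc t,
      ← mul_assoc t, hcent, mul_assoc z, mul_assoc t t, mul_inv_cancel₀ ht0, mul_one, add_comm]
  choose P hP using hex
  obtain ⟨l0, hl0⟩ := LinearMap.exists_leftInverse_of_injective (Algebra.linearMap k D)
    (LinearMap.ker_eq_bot.mpr (algebraMap k D).injective)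
  have hl : ∀ c : k, l0 (algebraMap k D c) = c := fun c => LinearMap.congr_fun hl0 c
  have hsm : ∀ (c : k) (x : C), ι (kk k K K' c • x) = c • ι x := by
    intro c x
    rw [Algebra.smul_def, map_mul, kk, RingHom.comp_apply, h.jK, Algebra.smul_def,
      ← IsScalarTower.algebraMap_apply]
  have hPadd : ∀ x y, P (x + y) = P x + P y := fun x y => h.inj (by
    rw [hP, map_add, hP, hP, mul_add, add_mul]
    abel)
  have hPsm : ∀ (c : k) x, P (c • x) = kk k K K' c • P x := fun c x => h.inj (by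
    rw [hP, hsm, hP, smul_add, mul_smul_comm, smul_mul_assoc])
  refine ⟨{ toFun := fun z => l0 (ι (algebraMap K' C (CC.T (P z)))) / 2
            map_add' := fun x y => ?_
            map_smul' := fun c x => ?_ }, fun x e hx => ?_⟩
  · rw [hPadd, map_add, map_add, map_add, map_add, add_div]
  · rw [hPsm, map_smul, smul_eq_mul, map_mul, ← Algebra.smul_def, hsm, map_smul, smul_eq_mul,
      RingHom.id_apply, smul_eq_mul, mul_div_assoc]
  · change l0 (ι (algebraMap K' C (CC.T (P (ι x))))) / 2 = e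
    have h1 : P (ι x) = (2 : K') • x := by
      apply h.inj
      rw [hP, ← h.comm x, mul_assoc, mul_inv_cancel₀ ht0, mul_one, two_smul, map_add]
    have h2 : (2 : K') * kk k K K' e = kk k K K' (2 * e) := by rw [map_mul, map_ofNat]
    rw [h1, map_smul, smul_eq_mul, hx, h2, kk, RingHom.comp_apply, h.jK,
      ← IsScalarTower.algebraMap_apply, hl]
    ring

omit h hSC hS hdC ht in
/-- The power sums. -/
theorem pow_T [CharZero K'] {w : D} {γ : C} {e1 e2 e3 : k} (he : HasE k K CC ι w γ e1 e2 e3) {Ω : Type}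
    [Field Ω] (φ : k →+* Ω) {r0 r1 r2 : Ω} (h1 : φ e1 = r0 + r1 + r2)
    (h2 : φ e2 = r0 * r1 + r0 * r2 + r1 * r2) (h3 : φ e3 = r0 * r1 * r2) (n : ℕ) :
    ∃ c : k, CC.T (γ ^ n) = kk k K K' c ∧ φ c = r0 ^ n + r1 ^ n + r2 ^ n := by
  induction n using Nat.strong_induction_on with
  | _ n ih =>
    match n, ih with
    | 0, _ =>
      refine ⟨3, ?_, ?_⟩
      · rw [pow_zero, CC.T_one, map_ofNat]
      · rw [map_ofNat, pow_zero, pow_zero, pow_zero]
        norm_num
    | 1, _ => exact ⟨e1, by rw [pow_one, he.T], by rw [h1, pow_one, pow_one, pow_one]⟩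
    | 2, _ =>
      refine ⟨e1 ^ 2 - 2 * e2, ?_, ?_⟩
      · have e1' := two_S CC γ
        rw [he.T, he.S] at e1'
        have e2' : kk k K K' (e1 ^ 2 - 2 * e2) = kk k K K' e1 ^ 2 - 2 * kk k K K' e2 := by
          rw [map_sub, map_pow, map_mul, map_ofNat]
        rw [pow_two, e2']
        linear_combination e1'
      · rw [map_sub, map_pow, map_mul, map_ofNat, h1, h2]
        ring
    | m + 3, ih =>
      obtain ⟨c2, hc2, hr2⟩ := ih (m + 2) (by omega)
      obtain ⟨c1, hc1, hr1⟩ := ih (m + 1) (by omega)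
      obtain ⟨c0, hc0, hr0⟩ := ih m (by omega)
      refine ⟨e1 * c2 - e2 * c1 + e3 * c0, ?_, ?_⟩
      · rw [T_pow_succ CC γ m, hc2, hc1, hc0, he.T, he.S, he.N, map_add, map_sub, map_mul,
          map_mul, map_mul]
      · rw [map_add, map_sub, map_mul, map_mul, map_mul, hr2, hr1, hr0, h1, h2, h3]
        ring

omit h hSC hS hdC ht in
/-- The coefficients in terms of the linear form. -/
theorem tr_E [CharZero K'] {tr : D →ₗ[k] k}
    (htr : ∀ (x : C) (e : k), CC.T x = kk k K K' e → tr (ι x) = e) {w : D} {γ : C} {e1 e2 e3 : k}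
    (he : HasE k K CC ι w γ e1 e2 e3) :
    tr (w ^ 2) = e1 ∧ tr (w ^ 4) = e1 ^ 2 - 2 * e2 ∧
      tr (w ^ 6) = e1 ^ 3 - 3 * e1 * e2 + 3 * e3 := by
  have hT2 : CC.T (γ * γ) = kk k K K' (e1 ^ 2 - 2 * e2) := by
    have e1' := two_S CC γ
    rw [he.T, he.S] at e1'
    have e2' : kk k K K' (e1 ^ 2 - 2 * e2) = kk k K K' e1 ^ 2 - 2 * kk k K K' e2 := by
      rw [map_sub, map_pow, map_mul, map_ofNat]
    rw [e2']
    linear_combination e1'
  refine ⟨?_, ?_, ?_⟩
  · rw [pow_two, ← he.sq]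
    exact htr _ _ he.T
  · have e4 : w ^ 4 = ι (γ * γ) := by
      rw [map_mul, he.sq, show (4 : ℕ) = 2 + 2 from rfl, pow_add, pow_two]
    rw [e4]
    exact htr _ _ hT2
  · have e6 : w ^ 6 = ι (γ * γ * γ) := by
      rw [map_mul, map_mul, he.sq, show (6 : ℕ) = 2 + 2 + 2 from rfl, pow_add, pow_add, pow_two]
    rw [e6]
    refine htr _ _ ?_
    rw [T_cube, hT2, he.T, he.S, he.N]
    simp only [map_add, map_sub, map_mul, map_pow, map_ofNat]
    ring

omit h hSC hS hdC ht in
/-- The polynomials of a pencil compute the coefficients. -/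
theorem PE_eval [CharZero K'] {tr : D →ₗ[k] k}
    (htr : ∀ (x : C) (e : k), CC.T x = kk k K K' e → tr (ι x) = e) {x y : D} {c : k} {γ : C}
    {e1 e2 e3 : k} (he : HasE k K CC ι (x + c • y) γ e1 e2 e3) :
    (PE1 tr x y).eval c = e1 ∧ (PE2 tr x y).eval c = e2 ∧ (PE3 tr x y).eval c = e3 := by
  obtain ⟨h1, h2, h3⟩ := tr_E CC htr he
  have g1 : (PE1 tr x y).eval c = e1 := by rw [PE1, pwr_eval, h1]
  refine ⟨g1, ?_, ?_⟩
  · rw [PE2, eval_mul, eval_C, eval_sub, eval_pow, g1, pwr_eval, h2]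
    ring
  · rw [PE3, eval_mul, eval_C, eval_add, eval_sub, eval_pow, eval_mul, eval_mul, eval_mul, g1,
      pwr_eval, pwr_eval, h2, h3, eval_ofNat, eval_ofNat]
    ring

end frm

end Vale.Agent.P011.H359
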