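import Vale.Agent.P011.H359.Dbl3
import Vale.Agent.P011.H359.NoSgd
import Vale.Agent.P011.H182.Sq
import Vale.Agent.P011.H976.AOne

/-!
The doubling step `3 -> 6`, and degree `3 * 2 ^ e`.
-/

open NumberField IsDedekindDomain Module Polynomial

set_option linter.unusedSectionVars false

namespace Vale.Agent.P011.H359

open Vale.Agent.P011.Arith Vale.Agent.P011.Even Vale.Agent.P011.Two Vale.Agent.P011.One
open Vale.Agent.P011.Pow hiding exists_x2 nrd_near exists_numbers
open Vale.Agent.P011.H775 (Cub)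
open Vale.Agent.P011.W (HasNrd)

/-- **The elements of the centralizer** in degree `6`, for every normal subgroup of finite
index. -/
theorem abAt_three (hMP : MP 3) {k K D : Type}
    [Field k] [NumberField k] [Field K] [NumberField K] [StarRing K] [DivisionRing D] [StarRing D]
    [Algebra k K] [Algebra k D] [Algebra K D] [IsScalarTower k K D] {d : kˣ} {s : K}
    (hS : Setting k K D d s) (hdeg : finrank K D = (2 * 3) ^ 2) {a : kˣ} {t : D}
    (ht : t ∈ Xa D a) (ha : ¬ IsSquare (a : k)) (had : ¬ IsSquare ((a * d : kˣ) : k))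
    {Ω : Type} [Field Ω] [Algebra K Ω] (f : D →ₐ[K] Matrix (Fin (2 * 3)) (Fin (2 * 3)) Ω) {M : ℕ}
    (B : Basis (Fin M) k D) (Q : Subgroup (SUD f)) [Q.Normal] (hi : Q.index ≠ 0) :
    AbAt B f (Im Q) t := by
  classical
  obtain ⟨L, _, _, _, K', _, _, _, _, C, _, _, _, _, _, _, T, jC, hSC, hdC, h⟩ :=
    exists_isCent hS ha had (m := 3) hdeg ht
  have i3 := hSC.fin
  have i4 := hSC.cen
  have hK'c : CharZero K' := charZero_of_injective_algebraMap (algebraMap K K').injective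
  obtain ⟨CC⟩ := H775.exists_cub (K := K') (D := C) hdC
  let _ : Algebra k K' := ((algebraMap K K').comp (algebraMap k K)).toAlgebra
  have _ : IsScalarTower k K K' := IsScalarTower.of_algebraMap_eq fun _ => rfl
  refine H976.PY.abAt_of_y le_rfl hMP hS hdeg hSC hdC h f B Q hi fun ε hε S0 hS0 => ?_
  obtain ⟨S, c, ε1, hSf, hc, hε1, -, hJ⟩ := exists_good_j hS hSC h hdC ht CC B
    (H182.exists_sq hS (m := 3) hdeg (by norm_num) ht ha had)
  obtain ⟨S1, hS1, hy0⟩ := H976.PY.exists_y_good hS hSC h hdC ht (Xa_ne hS ha ht) CC f B Q hi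
  obtain ⟨S2, hS2⟩ : ∃ S2, S2 = S1 ∪ (S ∪ S0) := ⟨_, rfl⟩
  have hS2f : S2.Finite := by
    rw [hS2]
    exact hS1.union (hSf.union hS0)
  obtain ⟨c1, hc1, hy⟩ := hy0 S2 hS2f (by rw [hS2]; exact Set.subset_union_left) ε hε
  have hSS : S ⊆ S2 := by
    rw [hS2]
    exact fun v hv => Or.inr (Or.inl hv)
  have hS0S : S0 ⊆ S2 := by
    rw [hS2]
    exact fun v hv => Or.inr (Or.inr hv)
  choose η hη hpu using fun v : HeightOneSpectrum (𝓞 k) =>
    pu_near hS hSC h hdC B v (ε := min c (c1 v)) (by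
      rcases min_choice c (c1 v) with h1 | h1 <;> rw [h1]
      · exact hc
      · exact hc1 v)
  refine ⟨S2, hS2f, fun v => min (η v) ε1, fun v => lt_min (hη v) hε1, ?_⟩
  intro x p u hx hN hpu' hnear
  have hpc : ∀ v ∈ S2, v.valuation k (p - 1) < min c (c1 v) ∧
      v.valuation k u < min c (c1 v) := fun v hv =>
    hpu v x p u hN ((hnear v hv).trans_le (min_le_left _ _))
  obtain ⟨j, γ, a1, a2, a3, hg⟩ := hJ x p u (by rw [Units.val_mul]; exact hpu')
    (cub_of_hasNrd CC hdC hN)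
    (fun v hv => ⟨(hpc v (hSS hv)).1.trans_le (min_le_left _ _),
      (hpc v (hSS hv)).2.trans_le (min_le_left _ _)⟩)
    (fun v hv => (hnear v (hSS hv)).trans_le (min_le_right _ _))
  obtain ⟨y, hy1, hy2, hy3, hy4⟩ := hy j γ a1 a2 a3 p u (H976.PY.goodJ_mono hSS hg) hpu'
    (fun v hv => ⟨(hpc v hv).1.trans_le (min_le_right _ _),
      (hpc v hv).2.trans_le (min_le_right _ _)⟩)
  exact ⟨y, hy1, hy2, hy3, fun v hv => hy4 v (hS0S hv)⟩

/-- **The doubling step** `3 -> 6`. -/
theorem mp_six (hMP : MP 3) : MP (2 * 3) := by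
  intro k K D _ _ _ _ _ _ _ _ _ _ _ d s hS hdeg Ω _ _ f M B N _ hi
  obtain ⟨a, t, ht, ha, had, -⟩ := exists_first_odd hS (m := 3) (by norm_num) hdeg
    (R := ∅) Set.finite_empty
  exact pf_of_abAt hS (by norm_num) hdeg f B ht N hi (abAt_three hMP hS hdeg ht ha had f B N hi)

/-- **Degree `3 * 2 ^ e`**, from degree `3`. -/
theorem mp_three_pow (hMP : MP 3) (e : ℕ) : MP (3 * 2 ^ e) := by
  cases e with
  | zero => rwa [pow_zero, mul_one]
  | succ e =>
    have h1 : 3 * 2 ^ (e + 1) = 2 * 3 * 2 ^ e := by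
      rw [pow_succ]
      ring
    rw [h1]
    exact mp_double_pow (by norm_num) (mp_six hMP) e

end Vale.Agent.P011.H359
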