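import Vale.Agent.P011.H948.ChartC

/-!
Semilinear ring endomorphisms of an algebra of degree three and the coefficients of the reduced
characteristic polynomial; power sums.
-/

open Module Polynomial Matrix

set_option linter.unusedSectionVars false

namespace Vale.Agent.P011.H359

open Vale.Agent.P011.H775 (Cub mat_charpoly)

/-- A copy of a field. -/
def Tw (Ω : Type) : Type := Ω

instance {Ω : Type} [Field Ω] : Field (Tw Ω) := inferInstanceAs (Field Ω)

section semi

variable {K D : Type} [Field K] [Ring D] [Algebra K D] [FiniteDimensional K D]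
  [Algebra.IsCentral K D] [IsSimpleRing D] (C : Cub K D)

/-- **The coefficients of the reduced characteristic polynomial of the image** under a semilinear
ring endomorphism. -/
theorem semi_coeff (hD : finrank K D = 3 ^ 2) (θ : D →+* D) (τ : K →+* K)
    (hθ : ∀ c : K, θ (algebraMap K D c) = algebraMap K D (τ c)) (x : D) :
    C.T (θ x) = τ (C.T x) ∧ C.S (θ x) = τ (C.S x) ∧ C.N (θ x) = τ (C.N x) := by
  obtain ⟨Ω, _, _, f, hf, hT, hN, hA⟩ := C.spl
  have hi : Function.Injective (algebraMap K Ω) := (algebraMap K Ω).injective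
  have hS : ∀ x, (f x).adjugate.trace = algebraMap K Ω (C.S x) := fun x => by
    rw [hA, hT]
    rfl
  let _ : Algebra K (Tw Ω) := ((algebraMap K Ω).comp τ : K →+* Ω).toAlgebra
  have hal : ∀ c : K, algebraMap K (Tw Ω) c = algebraMap K Ω (τ c) := fun c => rfl
  let g : D →ₐ[K] Matrix (Fin 3) (Fin 3) (Tw Ω) :=
    { (f : D →+* Matrix (Fin 3) (Fin 3) Ω).comp θ with
      commutes' := fun c => by
        change f (θ (algebraMap K D c)) = _
        rw [hθ, f.commutes]
        rfl }
  obtain ⟨P, -, -, hP⟩ := H268.exists_charpoly (by norm_num) hD f x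
  have hQ := H268.charpoly_compare' (by norm_num) hD f g x hP
  have hQ2 : (f (θ x)).charpoly = P.map ((algebraMap K Ω).comp τ) := hQ
  rw [mat_charpoly, hT, hS, hN] at hP hQ2
  have h0 := congrArg (fun Q => Polynomial.coeff Q 0) hP
  have h1 := congrArg (fun Q => Polynomial.coeff Q 1) hP
  have h2 := congrArg (fun Q => Polynomial.coeff Q 2) hP
  have g0 := congrArg (fun Q => Polynomial.coeff Q 0) hQ2
  have g1 := congrArg (fun Q => Polynomial.coeff Q 1) hQ2
  have g2 := congrArg (fun Q => Polynomial.coeff Q 2) hQ2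
  simp only [coeff_sub, coeff_add, coeff_X_pow, coeff_C_mul, coeff_X, coeff_C,
    Polynomial.coeff_map] at h0 h1 h2 g0 g1 g2
  norm_num at h0 h1 h2 g0 g1 g2
  have h1' : C.S x = P.coeff 1 := by first | exact h1 | exact hi h1
  have g1' : C.S (θ x) = τ (P.coeff 1) := by first | exact g1 | exact hi g1
  rw [← map_neg] at h0 h2
  have h0' := hi h0
  have h2' := hi h2
  have g0' : -C.N (θ x) = τ (P.coeff 0) := hi (by rw [map_neg]; exact g0)
  have g2' : -C.T (θ x) = τ (P.coeff 2) := hi (by rw [map_neg]; exact g2)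
  refine ⟨?_, ?_, ?_⟩
  · rw [← h2', map_neg] at g2'
    exact neg_injective g2'
  · rw [g1', ← h1']
  · rw [← h0', map_neg] at g0'
    exact neg_injective g0'

end semi

section newton

variable {K D : Type} [Field K] [CharZero K] [Ring D] [Algebra K D] (C : Cub K D)

theorem two_S (x : D) : 2 * C.S x = C.T x ^ 2 - C.T (x * x) := by
  have h1 := congrArg C.T (C.adj_eq x)
  rw [map_add, map_sub, map_smul, map_smul, C.T_one, smul_eq_mul, smul_eq_mul] at h1
  change C.S x = _ at h1
  linear_combination (-1 : K) * h1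

theorem T_cube (x : D) :
    C.T (x * x * x) = C.T x * C.T (x * x) - C.S x * C.T x + 3 * C.N x := by
  have h1 := congrArg C.T (C.cayley x)
  simp only [map_add, map_sub, map_smul, C.T_one, smul_eq_mul, map_zero] at h1
  linear_combination h1

theorem six_N (x : D) :
    6 * C.N x = C.T x ^ 3 - 3 * C.T x * C.T (x * x) + 2 * C.T (x * x * x) := by
  have h1 := T_cube C x
  have h2 := two_S C x
  linear_combination (-2 : K) * h1 + C.T x * h2

/-- The recursion of the power sums. -/
theorem T_pow_succ (x : D) (n : ℕ) :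
    C.T (x ^ (n + 3)) = C.T x * C.T (x ^ (n + 2)) - C.S x * C.T (x ^ (n + 1)) +
      C.N x * C.T (x ^ n) := by
  have h1 := congrArg (fun y => C.T (y * x ^ n)) (C.cayley x)
  simp only [sub_mul, add_mul, smul_mul_assoc, one_mul, zero_mul, map_sub, map_add, map_smul,
    smul_eq_mul, map_zero] at h1
  have e1 : x * x * x * x ^ n = x ^ (n + 3) := by
    rw [pow_succ', pow_succ', pow_succ', mul_assoc, mul_assoc]
  have e2 : x * x * x ^ n = x ^ (n + 2) := by
    rw [pow_succ', pow_succ', mul_assoc]
  have e3 : x * x ^ n = x ^ (n + 1) := by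
    rw [pow_succ']
  rw [e1, e2, e3] at h1
  linear_combination h1

/-- The power sums. -/
theorem T_pow_eq {Ω : Type} [Field Ω] (φ : K →+* Ω) (x : D) {r0 r1 r2 : Ω}
    (h1 : φ (C.T x) = r0 + r1 + r2) (h2 : φ (C.S x) = r0 * r1 + r0 * r2 + r1 * r2)
    (h3 : φ (C.N x) = r0 * r1 * r2) (n : ℕ) : φ (C.T (x ^ n)) = r0 ^ n + r1 ^ n + r2 ^ n := by
  induction n using Nat.strong_induction_on with
  | _ n ih =>
    match n, ih with
    | 0, _ =>
      rw [pow_zero, C.T_one, pow_zero, pow_zero, pow_zero, map_ofNat]
      norm_num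
    | 1, _ => rw [pow_one, pow_one, pow_one, pow_one, h1]
    | 2, _ =>
      have e1 := congrArg φ (two_S C x)
      rw [map_mul, map_sub, map_pow, h1, h2, map_ofNat] at e1
      rw [pow_two]
      linear_combination e1
    | m + 3, ih =>
      have e1 := congrArg φ (T_pow_succ C x m)
      rw [map_add, map_sub, map_mul, map_mul, map_mul, h1, h2, h3, ih (m + 2) (by omega),
        ih (m + 1) (by omega), ih m (by omega)] at e1
      rw [e1]
      ring

end newton

end Vale.Agent.P011.H359
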